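import Vale.Agent.P262.H439.QTip

/-!
# P262, block QTIP, consumer form: at a single time the weighted alive mass of a chain region is at
most twice the weighted mass of the labels which are not very sick
-/

set_option linter.all false

open MeasureTheory ProbabilityTheory Set Filter
open scoped ENNReal RealInnerProductSpace Topology

namespace Vale.Agent.P262.H439

open Vale.Agent.P262.H44 Vale.Agent.P262.H59 Vale.Agent.P262.H395
open Vale.Agent.P262.H395.KTree

variable {E : Type*} [NormedAddCommGroup E] [InnerProductSpace ℝ E] [FiniteDimensional ℝ E]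
  [MeasurableSpace E] [BorelSpace E]

variable {c : ℝ} {w : E → ℝ≥0∞} {V W0 : Submodule ℝ E} {K : Set E} {T : KTree E} {x0 : E}

/-- weights have finite fibre averages -/
lemma fib_weight_ne_top (hc0 : 0 ≤ c) (hc : c < 1 / 2) (hw : Weight c w) (W : Submodule ℝ E)
    (x : E) : fib W w x ≠ ⊤ := by
  have hreg := regC_qq hw (⊥ : Submodule ℝ E) isClosed_univ convex_univ
    (t := 1408) le_rfl
  have h := (hreg.toTIn hc0 hc (by norm_num) (by norm_num)).fib_ne_top W x
  have e : (LL (⊥ : Submodule ℝ E) (univ : Set E) 1408).indicator w = w := by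
    funext y
    refine indicator_of_mem ?_ w
    show ENNReal.ofReal (Real.exp (-1408)) ≤ qq ⊥ univ y
    have : qq (⊥ : Submodule ℝ E) (univ : Set E) y = 1 := by
      unfold qq
      have e1 : (univ : Set E).indicator (1 : E → ℝ≥0∞) = fun _ => 1 := by
        funext z
        simp
      rw [e1, fib_const]
    rw [this, ← ENNReal.ofReal_one]
    refine ENNReal.ofReal_le_ofReal ?_
    rw [Real.exp_le_one_iff]
    norm_num
  rw [e] at h
  exact h

/-- the very sick labels can be dropped at a single time, factor `1 + 2 θ` -/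
theorem qtip_drop (hc0 : 0 ≤ c) (hc : c < 1 / 2) (hw : Weight c w) (hK : IsClosed K)
    (hKc : Convex ℝ K) (hT : T.Valid W0) (hu : Under V T) (hWV : W0 ≤ V)
    (hh : ∀ y, W0.starProjection y = W0.starProjection x0 → HKQ K w T y)
    (hroot : QH (1 / 4) K w T.frz W0 x0) (n : ℕ) (hn : 10 ≤ n) :
    fib W0 (T.reg.indicator fun x => w x * qq V K x) x0 ≤
      2 * fib W0 (T.reg.indicator fun x => w x *
        {x | ENNReal.ofReal (Real.exp (-(1408 + n))) ≤ qq V K x}.indicator (qq V K) x) x0 := by
  have hTm := measurableSet_reg hT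
  have hqm := measurable_qq (V := V) hK.measurableSet
  set q0 := ENNReal.ofReal (Real.exp (-(1408 + (n : ℝ)))) with hq0
  have hlt : MeasurableSet {x | qq V K x < q0} := measurableSet_lt hqm measurable_const
  have hge : MeasurableSet {x | q0 ≤ qq V K x} := measurableSet_le measurable_const hqm
  have key := qtip hc0 hc hw hK hKc hT hu hWV hh hroot n
  set A := fib W0 (T.reg.indicator fun x => w x * qq V K x) x0 with hA
  set B := fib W0 (T.reg.indicator fun x => w x * {x | q0 ≤ qq V K x}.indicator (qq V K) x) x0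
    with hB
  set C := fib W0 (T.reg.indicator fun x => w x * {x | qq V K x < q0}.indicator (qq V K) x) x0
    with hC
  have hfin : A ≠ ⊤ := by
    refine ne_top_of_le_ne_top (fib_weight_ne_top hc0 hc hw W0 x0) (fib_mono (fun y => ?_) x0)
    refine (indicator_le_self' (fun _ _ => bot_le) y).trans ?_
    calc w y * qq V K y ≤ w y * 1 := by
          gcongr
          exact qq_le_one V K y
      _ = w y := mul_one _
  have hsum : A = B + C := by
    have hm : Measurable (T.reg.indicator fun x => w x *
        {x | q0 ≤ qq V K x}.indicator (qq V K) x) :=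
      (hw.meas.mul (hqm.indicator hge)).indicator hTm
    rw [hA, hB, hC, ← fib_add hm]
    congr 1
    funext y
    by_cases h1 : y ∈ T.reg
    · rw [indicator_of_mem h1, indicator_of_mem h1, indicator_of_mem h1]
      by_cases h2 : q0 ≤ qq V K y
      · rw [indicator_of_mem (show y ∈ {x | q0 ≤ qq V K x} from h2),
          indicator_of_notMem (show y ∉ {x | qq V K x < q0} from not_lt.mpr h2), mul_zero,
          add_zero]
      · rw [indicator_of_notMem (show y ∉ {x | q0 ≤ qq V K x} from h2),
          indicator_of_mem (show y ∈ {x | qq V K x < q0} from not_le.mp h2), mul_zero, zero_add]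
    · rw [indicator_of_notMem h1, indicator_of_notMem h1, indicator_of_notMem h1, add_zero]
  have hhalf : ENNReal.ofReal (8 * (3 / 4) ^ n) ≤ ENNReal.ofReal (1 / 2) := by
    refine ENNReal.ofReal_le_ofReal ?_
    have : (3 / 4 : ℝ) ^ n ≤ (3 / 4) ^ 10 := pow_le_pow_of_le_one (by norm_num) (by norm_num) hn
    calc (8 : ℝ) * (3 / 4) ^ n ≤ 8 * (3 / 4) ^ 10 := by gcongr
      _ ≤ 1 / 2 := by norm_num
  have h2 : C ≤ ENNReal.ofReal (1 / 2) * A := key.trans (mul_le_mul' hhalf le_rfl)
  have hBfin : B ≠ ⊤ := ne_top_of_le_ne_top hfin (by rw [hsum]; exact le_self_add)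
  have hCfin : C ≠ ⊤ := ne_top_of_le_ne_top hfin (by rw [hsum]; exact le_add_self)
  rw [← ENNReal.ofReal_toReal hCfin, ← ENNReal.ofReal_toReal hfin,
    ← ENNReal.ofReal_mul (by norm_num), ENNReal.ofReal_le_ofReal_iff (by positivity)] at h2
  have h3 : A.toReal = B.toReal + C.toReal := by
    rw [hsum, ENNReal.toReal_add hBfin hCfin]
  rw [← ENNReal.ofReal_toReal hfin, ← ENNReal.ofReal_toReal hBfin,
    show (2 : ℝ≥0∞) = ENNReal.ofReal 2 by norm_num, ← ENNReal.ofReal_mul (by norm_num)]
  refine ENNReal.ofReal_le_ofReal ?_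
  linarith

/-- **QTIP, unit form**: the weighted alive mass is at most twice the weighted mass of the labels
with alive mass at least `e^{-1418}`. -/
theorem qtip_unit (hc0 : 0 ≤ c) (hc : c < 1 / 2) (hw : Weight c w) (hK : IsClosed K)
    (hKc : Convex ℝ K) (hT : T.Valid W0) (hu : Under V T) (hWV : W0 ≤ V)
    (hh : ∀ y, W0.starProjection y = W0.starProjection x0 → HKQ K w T y)
    (hroot : QH (1 / 4) K w T.frz W0 x0) :
    fib W0 (T.reg.indicator fun x => w x * qq V K x) x0 ≤
      2 * fib W0 (T.reg.indicator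
        ({x | ENNReal.ofReal (Real.exp (-1418)) ≤ qq V K x}.indicator w)) x0 := by
  refine (qtip_drop hc0 hc hw hK hKc hT hu hWV hh hroot 10 le_rfl).trans ?_
  have e : (-(1408 + ((10 : ℕ) : ℝ))) = -1418 := by norm_num
  rw [e]
  gcongr 2 * ?_
  refine fib_mono (fun y => indicator_le_indicator ?_) x0
  by_cases h2 : ENNReal.ofReal (Real.exp (-1418)) ≤ qq V K y
  · rw [indicator_of_mem (show y ∈ {x | ENNReal.ofReal (Real.exp (-1418)) ≤ qq V K x} from h2),
      indicator_of_mem (show y ∈ {x | ENNReal.ofReal (Real.exp (-1418)) ≤ qq V K x} from h2)]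
    calc w y * qq V K y ≤ w y * 1 := by
          gcongr
          exact qq_le_one V K y
      _ = w y := mul_one _
  · rw [indicator_of_notMem (show y ∉ {x | ENNReal.ofReal (Real.exp (-1418)) ≤ qq V K x} from h2),
      mul_zero]
    exact bot_le

end Vale.Agent.P262.H439
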