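import Vale.Agent.P262.H439.PaySys
import Vale.Agent.P262.H706.Theta
import Vale.Agent.P262.H941.BeSys

/-!
# P262, block THR0, good part: the direction `θ` and the own directions above `rk p k`
-/

set_option linter.all false

open MeasureTheory ProbabilityTheory Set
open scoped ENNReal NNReal RealInnerProductSpace
open Vale.Agent.P262.H118 (ON rotE lyd nv sg la norm_nv nv_mem la_add measurableSet_la lyd_zero
  inner_mix_label mem_sg)
open Vale.Agent.P262.H395 (fib mix Inv measurable_fib fib_mono inv_fib)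
open Vale.Agent.P262.H395.CW (pl nk nk_nil nk_cons OMp OMc Lab SI)
open Vale.Agent.P262.H962 (capS measurable_capS)
open Vale.Agent.P262.H44 (InvS)
open Vale.Agent.P262.H439 (qq Pay)
open Vale.Agent.P262.H431

namespace Vale.Agent.P262.H439

open Vale.Agent.P262.M2
open Vale.Agent.P262.M2.Sys

variable {E : Type*} [NormedAddCommGroup E] [InnerProductSpace ℝ E] [FiniteDimensional ℝ E]
  [MeasurableSpace E] [BorelSpace E] {S : Sys E}

lemma mu_lyd_eq_gq {m : ℕ} (hrot : S.mv.IsRot m) {s r : List ℕ} (hs : S.mv.jj m <:+ s)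
    (hr : s <:+ r) {e : E} (he : e ∈ S.W s m) (o : Bool) (L : Set E) (h : ℝ) (y : E) :
    S.mu s (lyd (S.bd s m o) (S.bd s m (!o)) L e h) r m y / S.Dc r m y ^ S.th =
      S.gq m o s L e h r y := by
  unfold gq Sys.gB mu
  rw [tr_lyd_bd hrot hs hr he]
  cases o <;> rfl

lemma norm_sign {ε : ℝ} (hε : ε ∈ sg) {e : E} : ‖ε • e‖ = ‖e‖ := by
  rcases mem_sg.mp hε with rfl | rfl
  · rw [one_smul]
  · rw [neg_smul, one_smul, norm_neg]

section

variable {m : ℕ} {p : List ℕ} {k : ℕ} {θ : E} {b : List ℕ → E}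

/-- **the direction `θ`** -/
theorem pay_theta (hm : S.mv.tm m < S.T) (hrot : S.mv.IsRot m) (hth : S.th = 1 / 2)
    (hk : S.kq ≤ 1) (H : ThrC S) (hjj : S.mv.jj m = 0 :: p) (hN : NLk S p m k)
    (hR : S.RotB m (0 :: p) θ b) (hph : 0 < S.mv.ph m)
    (hLL : ∀ x, ∑' a : ℕ, ENNReal.ofReal (2 ^ a) *
      (fib (S.W (rk p k) m) ((la (b (rk p k)) a).indicator 1) x) ^ (1 / 4 : ℝ) ≤
      ENNReal.ofReal 300 *
        ENNReal.ofReal (1 + |⟪(S.W (rk p k) m).starProjection (b (rk p k)), x⟫|))
    (o : Bool) {ε : ℝ} (hε : ε ∈ sg) (n : ℕ) :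
    Pay (S.W p m) (S.W (rk p k) m) S.qq (S.th / 8) (Ks S (rk p k) p m)
      ((nkS S p m).indicator fun x => (Gd S (rk p k) m).indicator
        (fun x => ∑' a, H711.tau (S.fam m) (S.gTaL m (0 :: p) θ b o ε a) n (rk p k) x) x)
      (4 * (12 * ENNReal.ofReal S.kq) ^ n * ENNReal.ofReal (1200 * S.mv.ph m) *
        ENNReal.ofReal cPay) := by
  have hqr : (0 :: p) <:+ rk p k := List.suffix_append _ _
  have hpq : p <:+ 0 :: p := List.suffix_cons 0 p
  have hpr : p <:+ rk p k := hpq.trans hqr
  have hjq : S.mv.jj m <:+ 0 :: p := by rw [hjj]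
  set r := rk p k with hr
  have hθq := hR.mem
  have hθr : θ ∈ S.W r m := S.W_mono hqr m hθq
  have hθp : θ ∈ (S.W p m)ᗮ := hR.perp
  have hbθ : ∀ s, (0 :: p) <:+ s → ⟪b s, ε • θ⟫ = 0 := fun s hs => by
    rw [inner_smul_right, real_inner_comm, hR.inner_θ_b hs, mul_zero]
  have hbp : b r ∈ (S.W p m)ᗮ := Submodule.orthogonal_le (S.W_mono hpq m) (hR.bperp r hqr)
  -- the label part of `b`
  have hu2 : b r - (S.W r m).starProjection (b r) ∈ (S.W r m)ᗮ :=
    Submodule.sub_starProjection_mem_orthogonal _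
  have hup : (S.W r m).starProjection (b r) ∈ (S.W p m)ᗮ := by
    have e1 : (S.W r m).starProjection (b r) = b r - (b r - (S.W r m).starProjection (b r)) := by
      abel
    rw [e1]
    exact Submodule.sub_mem _ hbp (Submodule.orthogonal_le (S.W_mono hpr m) hu2)
  have hu1 : ‖(S.W r m).starProjection (b r)‖ ≤ 1 :=
    ((S.W r m).norm_starProjection_apply_le _).trans (hR.norm_b hqr).le
  have hue : ⟪(S.W r m).starProjection (b r), ε • θ⟫ = 0 := by
    rw [Submodule.inner_starProjection_left_eq_right, Submodule.starProjection_eq_self_iff.mpr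
      (Submodule.smul_mem _ _ hθr)]
    exact hbθ r hqr
  refine pay_star hm hrot hth hk H hjj hN (s := 0 :: p) hqr (e := ε • θ)
    (Submodule.smul_mem _ _ hθq) (Submodule.smul_mem _ _ hθp)
    (by rw [norm_sign hε]; exact (hR.on (0 :: p) (List.suffix_refl _)).hp) hu1 hup hue o
    (L := fun a => la (b (0 :: p)) a) (fun a => measurableSet_la _ _)
    (fun a => la_add (hbθ (0 :: p) (List.suffix_refl _))) (al := 1 / 4) (be := 1 / 4)
    (Or.inr ⟨rfl, rfl⟩) (h := fun a _ => 4 * S.mv.ph m * 2 ^ a) (fun a x => by positivity)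
    (fun a y t => rfl) (fun a => measurable_const) (fun a r _ x w _ => rfl)
    (fun a r => gTaL_meas o ε a r) (fun a r' hr' y => ?_) n (fun x => ?_)
  · refine le_of_eq ?_
    unfold gTaL
    exact mu_lyd_eq_gq hrot hjq (hqr.trans hr') (Submodule.smul_mem _ _ hθq) o _ _ y
  · have e1 : ∀ a, S.mu (0 :: p) (la (b (0 :: p)) a) r m x =
        fib (S.W r m) ((la (b r) a).indicator 1) x := by
      intro a
      unfold mu
      rw [hR.tr_la (List.suffix_refl _) hqr]
    calc ∑' a, ENNReal.ofReal (4 * S.mv.ph m * 2 ^ a) *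
          S.mu (0 :: p) (la (b (0 :: p)) a) r m x ^ (1 / 4 : ℝ)
        = ENNReal.ofReal (4 * S.mv.ph m) * ∑' a : ℕ, ENNReal.ofReal (2 ^ a) *
          (fib (S.W r m) ((la (b r) a).indicator 1) x) ^ (1 / 4 : ℝ) := by
          rw [← ENNReal.tsum_mul_left]
          congr 1
          funext a
          rw [e1, ENNReal.ofReal_mul (by positivity)]
          ring
      _ ≤ ENNReal.ofReal (4 * S.mv.ph m) * (ENNReal.ofReal 300 *
          ENNReal.ofReal (1 + |⟪(S.W r m).starProjection (b r), x⟫|)) :=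
          mul_le_mul' le_rfl (hLL x)
      _ = _ := by
          rw [← mul_assoc, ← ENNReal.ofReal_mul (by positivity)]
          congr 2
          ring

lemma sf1_stable {q r r' : List ℕ} (hqr : q <:+ r) (hr : r <:+ r') {i : ℕ}
    (hi : i < r.length - q.length) : sf1 q r' i = sf1 q r i := by
  have h1 := hr.length_le
  obtain ⟨-, -, h2, h3⟩ := sf1_facts hqr hi
  obtain ⟨-, -, h4, h5⟩ := sf1_facts (hqr.trans hr) (i := i) (by omega)
  have h6 : sf1 q r i <:+ r' := h2.trans hr
  rcases List.suffix_or_suffix_of_suffix h4 h6 with h | h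
  · exact h.eq_of_length (by rw [h5, h3])
  · exact (h.eq_of_length (by rw [h5, h3])).symm

/-- the payoff zero -/
lemma Pay.zero {V W : Submodule ℝ E} {q a : ℝ} {K : Set E} {f : E → ℝ≥0∞} {C : ℝ≥0∞}
    (hf : ∀ x, f x = 0) : Pay V W q a K f C := by
  intro l0 l' L W0 F hg x0 hr
  have : (fun x => (Vale.Agent.P262.Cons493.avoid L).indicator (1 : E → ℝ≥0∞) x *
      (Vale.Agent.P262.H606.dw a (Vale.Agent.P262.H962.PB ((l0 ++ L.map Prod.fst) ++ l') q) x *
        f x)) = fun _ => 0 := by
    funext x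
    rw [hf x, mul_zero, mul_zero]
  rw [this]
  unfold Vale.Agent.P262.H395.fib
  rw [lintegral_zero]
  exact bot_le

/-- **the own directions of `b` above `rk p k`** -/
theorem pay_own (hm : S.mv.tm m < S.T) (hrot : S.mv.IsRot m) (hth : S.th = 1 / 2)
    (hk : S.kq ≤ 1) (H : ThrC S) (hjj : S.mv.jj m = 0 :: p) (hN : NLk S p m k)
    (hR : S.RotB m (0 :: p) θ b) (hph : 0 < S.mv.ph m) (o : Bool) {ε : ℝ} (hε : ε ∈ sg) (n : ℕ)
    {i : ℕ} (hi : i < k) :
    Pay (S.W p m) (S.W (rk p k) m) S.qq (S.th / 8) (Ks S (rk p k) p m)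
      ((nkS S p m).indicator fun x => (Gd S (rk p k) m).indicator
        (fun x => H711.tau (S.fam m) (S.gO m b θ (0 :: p) o ε i) n (rk p k) x) x)
      (4 * (12 * ENNReal.ofReal S.kq) ^ n * ENNReal.ofReal (2 ^ (i + 3) * S.mv.ph m) *
        ENNReal.ofReal cPay) := by
  have hqr : (0 :: p) <:+ rk p k := List.suffix_append _ _
  have hpq : p <:+ 0 :: p := List.suffix_cons 0 p
  have hlen := length_rk p k
  have hi' : i < (rk p k).length - (0 :: p).length := by
    rw [hlen, List.length_cons]; omega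
  obtain ⟨hs1, hs2, hs3, hs4⟩ := sf1_facts hqr hi'
  have hstab : ∀ r', rk p k <:+ r' → sf1 (0 :: p) r' i = sf1 (0 :: p) (rk p k) i := fun r' hr' =>
    sf1_stable hqr hr' hi'
  set r := rk p k with hr
  set s := sf1 (0 :: p) r i with hsdef
  have hjs : S.mv.jj m <:+ s := by rw [hjj]; exact hs2
  have hbo : S.bo m b s ∈ S.W s m := bo_mem
  have hes : ε • nv (S.bo m b s) ∈ S.W s m := Submodule.smul_mem _ _ (nv_mem hbo)
  have hpay : ∀ r', r <:+ r' → ∀ y, S.gO m b θ (0 :: p) o ε i r' y =
      S.gq m o s univ (ε • nv (S.bo m b s)) (S.stb m i θ y) r' y := by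
    intro r' hr' y
    unfold gO
    rw [hstab r' hr']
    exact mu_lyd_eq_gq hrot hjs (hs3.trans hr') hes o _ _ y
  by_cases hb0 : S.bo m b s = 0
  · -- no own direction
    refine Pay.zero fun x => ?_
    have h1 : H711.tau (S.fam m) (S.gO m b θ (0 :: p) o ε i) n r x ≤
        H711.tau (S.fam m) (fun _ _ => 0) n r x := by
      refine H837.tau_mono_of (F := S.fam m) (Q := fun _ r' => r <:+ r')
        (fun _ r' x' hr' _ => hr'.trans (List.suffix_cons _ _)) (fun r' hr' y => ?_) n r
        (List.suffix_refl _) x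
      rw [hpay r' hr' y, hb0]
      refine le_of_eq (gq_zero m o s ?_ r' y)
      unfold Vale.Agent.P262.H118.nv
      simp
    rw [H941.tau_of_zero (fun _ _ => rfl)] at h1
    have h2 : H711.tau (S.fam m) (S.gO m b θ (0 :: p) o ε i) n r x = 0 :=
      le_antisymm h1 bot_le
    by_cases h3 : x ∈ nkS S p m
    · rw [indicator_of_mem h3]
      by_cases h4 : x ∈ Gd S r m
      · rw [indicator_of_mem h4, h2]
      · rw [indicator_of_notMem h4]
    · rw [indicator_of_notMem h3]
  have hep : ε • nv (S.bo m b s) ∈ (S.W p m)ᗮ := by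
    refine Submodule.smul_mem _ _ (nv_mem ?_)
    exact Submodule.orthogonal_le (S.W_mono (hpq.trans hs1) m) bo_perp
  have he1 : ‖ε • nv (S.bo m b s)‖ = 1 := by rw [norm_sign hε]; exact norm_nv hb0
  have hue : ⟪θ, ε • nv (S.bo m b s)⟫ = 0 := by
    unfold Vale.Agent.P262.H118.nv
    rw [inner_smul_right, inner_smul_right, hR.inner_θ_bo hs1, mul_zero, mul_zero]
  have hphn := S.mv.ph_nonneg m
  have hθW : ∀ r', r <:+ r' → θ ∈ S.W r' m := fun r' hr' => S.W_mono (hqr.trans hr') m hR.mem
  have key := pay_star hm hrot hth hk H hjj hN (s := s) hs3 (e := ε • nv (S.bo m b s)) hes hep he1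
    (u := θ) (hR.on (0 :: p) (List.suffix_refl _)).hp.le hR.perp hue o
    (L := fun a => if a = 0 then univ else ∅)
    (fun a => by split_ifs; exacts [MeasurableSet.univ, MeasurableSet.empty])
    (fun a y hy t => by
      split_ifs at hy ⊢ with h
      · trivial
      · exact absurd hy (notMem_empty _)) (al := 1 / 4) (be := 1 / 4)
    (Or.inr ⟨rfl, rfl⟩) (h := fun _ x => S.stb m i θ x)
    (fun a x => by unfold stb; positivity)
    (fun a y t => by
      unfold stb
      rw [inner_add_right, inner_smul_right, hue, mul_zero, add_zero])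
    (fun a => (stb_cont m i θ).measurable)
    (fun a r' hr' x w hw => by
      have h1 : ⟪θ, x + w⟫ = ⟪θ, x⟫ := inv_one_add le_rfl (hθW r' hr') x hw
      unfold stb
      rw [h1])
    (g := fun a r' y => if a = 0 then S.gO m b θ (0 :: p) o ε i r' y else 0)
    (fun a r' => by
      split_ifs
      · exact gO_meas m b θ _ o ε i r'
      · exact measurable_const)
    (fun a r' hr' y => by
      split_ifs with h
      · exact le_of_eq (hpay r' hr' y)
      · exact bot_le) n
    (C1 := ENNReal.ofReal (2 ^ (i + 3) * S.mv.ph m)) (fun x => by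
      rw [tsum_eq_single 0 (fun a ha => by
        rw [if_neg ha]
        have : S.mu s ∅ r m x = 0 := by
          unfold mu
          rw [preimage_empty, indicator_empty]
          unfold Vale.Agent.P262.H395.fib
          simp
        rw [this, ENNReal.zero_rpow_of_pos (by norm_num), mul_zero])]
      rw [if_pos rfl]
      have h1 : S.mu s univ r m x ^ (1 / 4 : ℝ) ≤ 1 :=
        ENNReal.rpow_le_one (mu_le_one x) (by norm_num)
      calc ENNReal.ofReal (S.stb m i θ x) * S.mu s univ r m x ^ (1 / 4 : ℝ)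
          ≤ ENNReal.ofReal (S.stb m i θ x) * 1 := mul_le_mul' le_rfl h1
        _ = _ := by
            rw [mul_one, ← ENNReal.ofReal_mul (by positivity)]
            unfold stb
            congr 1
            ring)
  refine key.mono (fun x => ?_) le_rfl
  by_cases h3 : x ∈ nkS S p m
  · rw [indicator_of_mem h3, indicator_of_mem h3]
    by_cases h4 : x ∈ Gd S r m
    · rw [indicator_of_mem h4, indicator_of_mem h4]
      refine le_trans (le_of_eq ?_) (ENNReal.le_tsum 0)
      simp only [if_true]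
      rfl
    · rw [indicator_of_notMem h4]
      exact bot_le
  · rw [indicator_of_notMem h3]
    exact bot_le

end

end Vale.Agent.P262.H439
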