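import Vale.Agent.P262.H431.Per2

/-!
# P262, block THR0, good part: lattice runs inside a good region are paid by line maxima

`τ` has lattice runs (step `h e`) inside the region `G` bounded by `B`; over a label of `G` the
body `K` is alive with probability at least `κ`. Then the weighted integral of `τ` over `G` is at
most `kk h κ⁻¹` times the weighted integral of `B * mL w K e`, the functional of the perimeter
theorem: the right side carries the alive mass of `K`, not the dead mass.
-/

set_option linter.all false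

open MeasureTheory Set Filter ProbabilityTheory
open scoped ENNReal NNReal Topology RealInnerProductSpace

namespace Vale.Agent.P262.H439

open Vale.Agent.P262.H493 hiding fib
open Vale.Agent.P262.H395 Vale.Agent.P262.H431 Vale.Agent.P262.H44

/-! ### one dimensional lattice sums -/

lemma lint_cell {f : ℝ → ℝ≥0∞} (hf : Measurable f) (a h : ℝ) :
    ∫⁻ t in Ico a (a + h), f t = ∫⁻ t in Ico 0 h, f (t + a) := by
  rw [← lintegral_indicator measurableSet_Ico, ← lintegral_indicator measurableSet_Ico,
    ← lintegral_add_right_eq_self (μ := volume) _ a]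
  apply lintegral_congr
  intro t
  by_cases ht : t ∈ Ico 0 h
  · rw [indicator_of_mem ht, indicator_of_mem]
    exact ⟨by linarith [ht.1], by linarith [ht.2]⟩
  · rw [indicator_of_notMem ht, indicator_of_notMem]
    intro h2
    exact ht ⟨by linarith [h2.1], by linarith [h2.2]⟩

lemma lint_cells {f : ℝ → ℝ≥0∞} (hf : Measurable f) (a : ℝ) {h : ℝ} (hh : 0 ≤ h) (n : ℕ) :
    ∫⁻ t in Ico a (a + n * h), f t
      = ∫⁻ t in Ico 0 h, ∑ j ∈ Finset.range n, f (t + a + j * h) := by
  induction n with
  | zero => simp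
  | succ n ih =>
    have e1 : Ico a (a + ((n + 1 : ℕ) : ℝ) * h)
        = Ico a (a + n * h) ∪ Ico (a + n * h) ((a + n * h) + h) := by
      rw [Ico_union_Ico_eq_Ico (by nlinarith [(Nat.cast_nonneg n : (0 : ℝ) ≤ n)]) (by linarith)]
      congr 1
      push_cast
      ring
    rw [e1, lintegral_union measurableSet_Ico, ih, lint_cell hf]
    · simp_rw [Finset.sum_range_succ]
      rw [lintegral_add_right]
      · congr 1
        apply lintegral_congr
        intro t
        congr 1
        ring
      · exact hf.comp (by fun_prop)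
    · rw [Set.disjoint_left]
      intro x hx hx2
      exact absurd hx.2 (not_lt.mpr hx2.1)

/-- if all finite lattice sums of `f` are at most `B` then its integral is at most `h B` -/
theorem lint_lattice {f : ℝ → ℝ≥0∞} (hf : Measurable f) {h : ℝ} (hh : 0 < h) {B : ℝ≥0∞}
    (hB : ∀ (t : ℝ) (n : ℕ), ∑ j ∈ Finset.range n, f (t + j * h) ≤ B) :
    ∫⁻ t, f t ≤ ENNReal.ofReal h * B := by
  have h1 : ∀ N : ℕ, ∫⁻ t in Ico (-(N * h)) (N * h), f t ≤ ENNReal.ofReal h * B := by
    intro N
    have e1 : Ico (-((N : ℝ) * h)) (N * h)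
        = Ico (-((N : ℝ) * h)) (-((N : ℝ) * h) + ((2 * N : ℕ) : ℝ) * h) := by
      congr 1
      push_cast
      ring
    rw [e1, lint_cells hf _ hh.le]
    calc ∫⁻ t in Ico 0 h, ∑ j ∈ Finset.range (2 * N), f (t + -((N : ℝ) * h) + j * h)
        ≤ ∫⁻ t in Ico 0 h, B := lintegral_mono fun t => hB _ _
      _ = ENNReal.ofReal h * B := by
          rw [setLIntegral_const, Real.volume_Ico, sub_zero, mul_comm]
  have h2 : (⋃ N : ℕ, Ico (-((N : ℝ) * h)) (N * h)) = univ := by
    rw [eq_univ_iff_forall]
    intro x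
    obtain ⟨N, hN⟩ := exists_nat_gt (|x| / h)
    rw [mem_iUnion]
    refine ⟨N, ?_⟩
    rw [div_lt_iff₀ hh] at hN
    exact ⟨by linarith [neg_abs_le x], by linarith [le_abs_self x]⟩
  have h3 : Directed (· ⊆ ·) fun N : ℕ => Ico (-((N : ℝ) * h)) (N * h) := by
    apply Monotone.directed_le
    intro m n hmn
    have : (m : ℝ) ≤ n := by exact_mod_cast hmn
    exact Ico_subset_Ico (by nlinarith) (by nlinarith)
  rw [← setLIntegral_univ, ← h2, setLIntegral_iUnion_of_directed _ h3]
  exact iSup_le h1

/-- lattice sums of `I.indicator τ`, `I` an interval, are runs -/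
lemma sum_runs_ind {I : Set ℝ} (hI : OrdConnected I) {τ : ℝ → ℝ≥0∞} {h : ℝ} (hh : 0 < h)
    {B : ℝ≥0∞}
    (hB : ∀ (t : ℝ) (J : ℕ), (∀ j ≤ J, t + j * h ∈ I) →
      ∑ j ∈ Finset.range (J + 1), τ (t + j * h) ≤ B) (t : ℝ) (n : ℕ) :
    ∑ j ∈ Finset.range n, I.indicator τ (t + j * h) ≤ B := by
  classical
  set s := (Finset.range n).filter (fun j : ℕ => t + (j : ℝ) * h ∈ I) with hs
  have e1 : ∑ j ∈ Finset.range n, I.indicator τ (t + j * h) = ∑ j ∈ s, τ (t + j * h) := by
    rw [hs, Finset.sum_filter]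
    apply Finset.sum_congr rfl
    intro j _
    by_cases hj : t + (j : ℝ) * h ∈ I
    · rw [indicator_of_mem hj, if_pos hj]
    · rw [indicator_of_notMem hj, if_neg hj]
  rw [e1]
  rcases s.eq_empty_or_nonempty with he | hne
  · rw [he, Finset.sum_empty]
    exact zero_le
  · set a := s.min' hne with ha
    set b := s.max' hne with hb
    have ham : a ∈ s := Finset.min'_mem s hne
    have hbm : b ∈ s := Finset.max'_mem s hne
    have hab : a ≤ b := Finset.min'_le s b hbm
    have haI : t + (a : ℝ) * h ∈ I := (Finset.mem_filter.mp ham).2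
    have hbI : t + (b : ℝ) * h ∈ I := (Finset.mem_filter.mp hbm).2
    have hall : ∀ j ≤ b - a, (t + a * h) + (j : ℝ) * h ∈ I := by
      intro j hj
      apply hI.out haI hbI
      have h1 : (0 : ℝ) ≤ j := Nat.cast_nonneg j
      have h2 : ((j : ℕ) : ℝ) ≤ (b : ℝ) - a := by
        have : j + a ≤ b := by omega
        have : ((j + a : ℕ) : ℝ) ≤ b := by exact_mod_cast this
        push_cast at this
        linarith
      constructor
      · nlinarith
      · nlinarith
    refine le_trans ?_ (hB (t + a * h) (b - a) hall)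
    have hsub : s ⊆ (Finset.range (b - a + 1)).image fun i => a + i := by
      intro j hj
      rw [Finset.mem_image]
      have h1 : a ≤ j := Finset.min'_le s j hj
      have h2 : j ≤ b := Finset.le_max' s j hj
      exact ⟨j - a, Finset.mem_range.mpr (by omega), by omega⟩
    refine (Finset.sum_le_sum_of_subset hsub).trans (le_of_eq ?_)
    rw [Finset.sum_image (fun x _ y _ hxy => by simpa using hxy)]
    apply Finset.sum_congr rfl
    intro i _
    congr 1
    push_cast
    ring

variable {E : Type*} [NormedAddCommGroup E] [InnerProductSpace ℝ E] [FiniteDimensional ℝ E]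
  [MeasurableSpace E] [BorelSpace E]

/-! ### line maxima over a good label -/

lemma mL_add {w : E → ℝ≥0∞} {K : Set E} {e : E} (he : ‖e‖ = 1) (x : E) (s : ℝ) :
    mL w K e (x + s • e) = mL w K e x := by
  unfold mL
  simp only [pt_add e x he]

lemma mix_add_smul {W : Submodule ℝ E} {e : E} (heW : e ∈ W) (x z : E) (s : ℝ) :
    mix W (x + s • e) z = mix W x z + s • e := by
  unfold mix
  rw [map_add, map_smul, Submodule.starProjection_eq_self_iff.mpr heW]
  abel

lemma fib_add_smul {W : Submodule ℝ E} {e : E} (heW : e ∈ W) {F : E → ℝ≥0∞}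
    (hF : ∀ (y : E) (s : ℝ), F (y + s • e) = F y) (x : E) (s : ℝ) : fib W F (x + s • e) = fib W F x := by
  unfold fib
  simp only [mix_add_smul heW, hF]

/-- over a good label the weight is paid by the line maximum -/
lemma good_le_mL {W : Submodule ℝ E} {e : E} (he : ‖e‖ = 1) (heW : e ∈ W) {w : E → ℝ≥0∞}
    (hw : Inv W w) {K : Set E} (hK : MeasurableSet K) {G : Set E} {κ : ℝ≥0∞}
    (hG : ∀ y ∈ G, κ ≤ fib W (K.indicator 1) y) (x : E) (t : ℝ) :
    κ * (ee t * G.indicator w (pt e x t)) ≤ fib W (mL w K e) x := by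
  set y := pt e x t with hy
  have hyt : ⟪e, y⟫ = t := inner_pt he x t
  have h1 : fib W (mL w K e) x = fib W (mL w K e) y := by
    have : y = x + (t - ⟪e, x⟫) • e := rfl
    rw [this, fib_add_smul heW (fun y s => mL_add he y s)]
  rw [h1]
  by_cases hyG : y ∈ G
  · rw [indicator_of_mem hyG]
    have h2 : ∀ z, (ee t * w y) * K.indicator (1 : E → ℝ≥0∞) (mix W y z)
        ≤ mL w K e (mix W y z) := by
      intro z
      have h3 : ⟪e, mix W y z⟫ = t := by
        rw [← hyt]
        unfold mix
        have h5 : ∀ u : E, ⟪e, W.starProjection u⟫ = ⟪e, u⟫ := fun u => by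
          rw [← Submodule.inner_starProjection_left_eq_right,
            Submodule.starProjection_eq_self_iff.mpr heW]
        rw [inner_add_right, inner_sub_right, h5, h5]
        ring
      have h4 : pt e (mix W y z) t = mix W y z := by
        conv_lhs => rw [← h3]
        exact pt_self e _
      refine le_trans ?_ (le_iSup (fun s => ee s * K.indicator w (pt e (mix W y z) s)) t)
      show _ ≤ ee t * K.indicator w (pt e (mix W y z) t)
      rw [h4]
      by_cases hk : mix W y z ∈ K
      · rw [indicator_of_mem hk, indicator_of_mem hk, Pi.one_apply, mul_one, hw.mix]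
      · rw [indicator_of_notMem hk, mul_zero]
        exact zero_le
    have h6 : (ee t * w y) * fib W (K.indicator 1) y ≤ fib W (mL w K e) y := by
      rw [← fib_mul (inv_const W (ee t * w y)) (measurable_one.indicator hK)]
      exact lintegral_mono h2
    calc κ * (ee t * w y) = (ee t * w y) * κ := mul_comm _ _
      _ ≤ (ee t * w y) * fib W (K.indicator 1) y := mul_le_mul' le_rfl (hG y hyG)
      _ ≤ _ := h6
  · rw [indicator_of_notMem hyG, mul_zero, mul_zero]
    exact zero_le

/-! ### the good part -/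

/-- one line -/
lemma gp_line {W : Submodule ℝ E} {e : E} (he : ‖e‖ = 1) (heW : e ∈ W) {w τ B : E → ℝ≥0∞}
    (hwm : Measurable w) (hτm : Measurable τ) (hw : Inv W w) {K : Set E} (hK : MeasurableSet K)
    {G : Set E} (hGm : MeasurableSet G) (hGc : ∀ x, OrdConnected {t : ℝ | pt e x t ∈ G})
    {κ : ℝ≥0∞} (hκ : κ ≠ 0) (hκt : κ ≠ ⊤) (hG : ∀ y ∈ G, κ ≤ fib W (K.indicator 1) y)
    {h : ℝ} (hh : 0 < h) (hBe : ∀ y (s : ℝ), B (y + s • e) = B y)
    (hrun : ∀ y (J : ℕ), (∀ j ≤ J, y + ((j : ℝ) * h) • e ∈ G) →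
      ∑ j ∈ Finset.range (J + 1), τ (y + ((j : ℝ) * h) • e) ≤ B y) (x : E) :
    fib (ℝ ∙ e)ᗮ (fun y => w y * G.indicator τ y) x
      ≤ kk * (κ⁻¹ * (fib W (mL w K e) x * (ENNReal.ofReal h * B x))) := by
  have hm : Measurable fun y => w y * G.indicator τ y := hwm.mul (hτm.indicator hGm)
  rw [fib_line_vol he hm]
  refine mul_le_mul' le_rfl ?_
  have hptm : Measurable fun t : ℝ => pt e x t := (continuous_pt_right e x).measurable
  have hstep : ∀ (t s : ℝ), pt e x (t + s) = pt e x t + s • e := by
    intro t s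
    unfold pt
    module
  -- the lattice bound on the line
  have h1 : ∫⁻ t, G.indicator τ (pt e x t) ≤ ENNReal.ofReal h * B x := by
    apply lint_lattice ((hτm.indicator hGm).comp hptm) hh
    intro t n
    have h2 := sum_runs_ind (hGc x) (τ := fun t => τ (pt e x t)) hh (B := B x) ?_ t n
    · refine le_trans (le_of_eq ?_) h2
      apply Finset.sum_congr rfl
      intro j _
      show G.indicator τ (pt e x (t + j * h)) = _
      by_cases hj : pt e x (t + j * h) ∈ G
      · rw [indicator_of_mem hj, indicator_of_mem (show t + j * h ∈ {t : ℝ | pt e x t ∈ G} from hj)]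
      · rw [indicator_of_notMem hj,
          indicator_of_notMem (show t + j * h ∉ {t : ℝ | pt e x t ∈ G} from hj)]
    · intro t J hJ
      have h3 := hrun (pt e x t) J (fun j hj => by rw [← hstep]; exact hJ j hj)
      have h4 : B (pt e x t) = B x := hBe x (t - ⟪e, x⟫)
      rw [h4] at h3
      simp only [hstep]
      exact h3
  -- pointwise
  have h5 : ∀ t, ee t * (w (pt e x t) * G.indicator τ (pt e x t))
      ≤ (κ⁻¹ * fib W (mL w K e) x) * G.indicator τ (pt e x t) := by
    intro t
    by_cases ht : pt e x t ∈ G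
    · have h6 := good_le_mL he heW hw hK hG x t
      rw [indicator_of_mem ht] at h6
      have h7 : ee t * w (pt e x t) ≤ κ⁻¹ * fib W (mL w K e) x := by
        calc ee t * w (pt e x t) = κ⁻¹ * (κ * (ee t * w (pt e x t))) := by
              rw [← mul_assoc, ENNReal.inv_mul_cancel hκ hκt, one_mul]
          _ ≤ _ := mul_le_mul' le_rfl h6
      rw [← mul_assoc]
      exact mul_le_mul' h7 le_rfl
    · rw [indicator_of_notMem ht, mul_zero, mul_zero, mul_zero]
  calc ∫⁻ t, ee t * (w (pt e x t) * G.indicator τ (pt e x t))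
      ≤ ∫⁻ t, (κ⁻¹ * fib W (mL w K e) x) * G.indicator τ (pt e x t) := lintegral_mono h5
    _ = (κ⁻¹ * fib W (mL w K e) x) * ∫⁻ t, G.indicator τ (pt e x t) :=
        lintegral_const_mul _ ((hτm.indicator hGm).comp hptm)
    _ ≤ (κ⁻¹ * fib W (mL w K e) x) * (ENNReal.ofReal h * B x) := mul_le_mul' le_rfl h1
    _ = _ := mul_assoc _ _ _

/-- **good part of THR0.** Lattice runs of `τ` inside the good region `G` of the labels of `W` are
bounded by `B`, and `K` is alive with probability `≥ κ` over the labels of `G`. -/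
theorem gp {W00 V W : Submodule ℝ E} (h0 : W00 ≤ V) (hVW : V ≤ W) {e : E} (he : ‖e‖ = 1)
    (heW : e ∈ W) (heV : e ∈ Vᗮ) {w τ B Om : E → ℝ≥0∞} (hwc : Continuous w)
    (hwt : ∀ x, w x ≠ ⊤) (hτm : Measurable τ) (hBm : Measurable B) (hOm : Measurable Om)
    (hw : Inv W w) (hBi : Inv W B) (hOi : Inv V Om) {K : Set E} (hK : IsCompact K)
    {G : Set E} (hGm : MeasurableSet G) (hGc : ∀ x, OrdConnected {t : ℝ | pt e x t ∈ G})
    {κ : ℝ≥0∞} (hκ : κ ≠ 0) (hκt : κ ≠ ⊤) (hG : ∀ y ∈ G, κ ≤ fib W (K.indicator 1) y)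
    {h : ℝ} (hh : 0 < h) (hBe : ∀ y (s : ℝ), B (y + s • e) = B y)
    (hrun : ∀ y (J : ℕ), (∀ j ≤ J, y + ((j : ℝ) * h) • e ∈ G) →
      ∑ j ∈ Finset.range (J + 1), τ (y + ((j : ℝ) * h) • e) ≤ B y) (x0 : E) :
    fib W00 (fun x => Om x * (w x * G.indicator τ x)) x0
      ≤ (kk * κ⁻¹ * ENNReal.ofReal h) * fib W00 (fun x => Om x * (B x * mL w K e x)) x0 := by
  have hwm := hwc.measurable
  have heO : V ≤ (ℝ ∙ e)ᗮ := by
    rw [← Submodule.orthogonal_orthogonal V]
    apply Submodule.orthogonal_le
    rw [Submodule.span_le, singleton_subset_iff]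
    exact heV
  have hmL : Measurable (mL w K e) := (usc_mL he hwc hwt hK).measurable
  have hOe : Inv (ℝ ∙ e)ᗮ Om := hOi.mono heO
  have m1 : Measurable fun y => w y * G.indicator τ y := hwm.mul (hτm.indicator hGm)
  have mF : Measurable (fib W (mL w K e)) := measurable_fib hmL
  have e1 : fib W00 (fun x => Om x * (w x * G.indicator τ x)) x0
      = fib W00 (fun x => Om x * fib (ℝ ∙ e)ᗮ (fun y => w y * G.indicator τ y) x) x0 := by
    rw [← fib_tower (h0.trans heO) (f := fun x => Om x * (w x * G.indicator τ x)) (hOm.mul m1)]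
    congr 1
    funext x
    exact fib_mul hOe m1 x
  have e2 : fib W00 (fun x => Om x * (B x * mL w K e x)) x0
      = fib W00 (fun x => (Om x * B x) * fib W (mL w K e) x) x0 := by
    have h1 : (fun x => Om x * (B x * mL w K e x)) = fun x => (Om x * B x) * mL w K e x := by
      funext x; ring
    rw [h1, ← fib_tower (h0.trans hVW) (f := fun x => (Om x * B x) * mL w K e x)
      ((hOm.mul hBm).mul hmL)]
    congr 1
    funext x
    exact fib_mul ((hOi.mono hVW).mul hBi) hmL x
  rw [e1, e2]
  have e3 : (kk * κ⁻¹ * ENNReal.ofReal h) * fib W00 (fun x => (Om x * B x) * fib W (mL w K e) x) x0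
      = fib W00 (fun x => (kk * κ⁻¹ * ENNReal.ofReal h)
        * ((Om x * B x) * fib W (mL w K e) x)) x0 := by
    exact (fib_mul (inv_const W00 (kk * κ⁻¹ * ENNReal.ofReal h))
      (f := fun x => (Om x * B x) * fib W (mL w K e) x) ((hOm.mul hBm).mul mF) x0).symm
  rw [e3]
  apply fib_mono
  intro x
  refine (mul_le_mul' le_rfl (gp_line he heW hwm hτm hw hK.measurableSet hGm hGc hκ hκt hG hh hBe
    hrun x)).trans (le_of_eq ?_)
  ring

end Vale.Agent.P262.H439
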