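import Vale.Agent.P262.H606.Floor

/-!
# P262, milestone 2: the Harnack inequality for deficits of nested labels

`df W' K x ≤ Hn W W' x * df W K x` with `Hn = exp (9 + 8/15 ‖P_{W'} x - P_W x‖²)`. The factor does
not depend on the body, so the same bound holds for maxima over any set of times; it has moments
of every order `a < 15/16` with constants `C ^ (dim W' - dim W)`.
-/

set_option linter.all false

open MeasureTheory ProbabilityTheory Set
open scoped ENNReal NNReal RealInnerProductSpace

namespace Vale.Agent.P262.H439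

open Vale.Agent.P262.H395
open Vale.Agent.P262.H606 (df floor fib_exp_incr)

variable {E : Type*} [NormedAddCommGroup E] [InnerProductSpace ℝ E] [FiniteDimensional ℝ E]
  [MeasurableSpace E] [BorelSpace E]

/-- sharp lower bound of the Gaussian tail -/
lemma tail_sharp {t : ℝ} (ht : 0 ≤ t) :
    ENNReal.ofReal (Real.exp (-(9 + 8 / 15 * t ^ 2))) ≤ gaussianReal 0 1 (Ici t) := by
  refine le_trans ?_ (H698.tail_lower (M := 1) ht le_rfl)
  apply ENNReal.ofReal_le_ofReal
  rw [H698.gpdf_form, div_one, one_div_one]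
  have h1 : Real.exp (-1) ≤ (√(2 * Real.pi))⁻¹ := by
    rw [Real.exp_neg]
    apply inv_anti₀ (by have := Real.pi_pos; positivity)
    rw [Real.sqrt_le_left (Real.exp_pos 1).le]
    have h3 : (2.7182818283 : ℝ) ≤ Real.exp 1 := Real.exp_one_gt_d9.le
    have h4 : Real.pi ≤ 3.15 := Real.pi_lt_d2.le
    nlinarith
  calc Real.exp (-(9 + 8 / 15 * t ^ 2)) ≤ Real.exp (-1) * Real.exp (-(t + 1) ^ 2 / 2) := by
        rw [← Real.exp_add]
        apply Real.exp_le_exp.mpr
        nlinarith [sq_nonneg (t - 15)]
    _ ≤ _ := mul_le_mul_of_nonneg_right h1 (Real.exp_pos _).le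

/-- the Harnack factor -/
noncomputable def Hn (W W' : Submodule ℝ E) (x : E) : ℝ≥0∞ :=
  ENNReal.ofReal (Real.exp (9 + 8 / 15 * ‖W'.starProjection x - W.starProjection x‖ ^ 2))

lemma Hn_ne_zero (W W' : Submodule ℝ E) (x : E) : Hn W W' x ≠ 0 := by
  unfold Hn
  simp [Real.exp_pos]

lemma Hn_ne_top (W W' : Submodule ℝ E) (x : E) : Hn W W' x ≠ ⊤ := ENNReal.ofReal_ne_top

lemma one_le_Hn (W W' : Submodule ℝ E) (x : E) : 1 ≤ Hn W W' x := by
  unfold Hn
  rw [ENNReal.one_le_ofReal]
  exact Real.one_le_exp (by positivity)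

lemma continuous_Hn (W W' : Submodule ℝ E) : Continuous (Hn W W') := by
  unfold Hn
  exact ENNReal.continuous_ofReal.comp (by fun_prop)

lemma measurable_Hn (W W' : Submodule ℝ E) : Measurable (Hn W W') :=
  (continuous_Hn W W').measurable

lemma inv_Hn {W W' : Submodule ℝ E} (h : W ≤ W') : Inv W' (Hn W W') := by
  intro x w hw
  unfold Hn
  rw [map_add, map_add, proj_eq_zero hw, proj_eq_zero (Submodule.orthogonal_le h hw), add_zero,
    add_zero]

/-- **Harnack inequality for the deficits of nested labels**, pointwise -/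
theorem harnack {W W' : Submodule ℝ E} (h : W ≤ W') {K : Set E} (hK : IsClosed K)
    (hKc : Convex ℝ K) (x : E) : df W' K x ≤ Hn W W' x * df W K x := by
  have h1 := floor h hK hKc x
  have h2 := tail_sharp (norm_nonneg (W'.starProjection x - W.starProjection x))
  set r : ℝ := 9 + 8 / 15 * ‖W'.starProjection x - W.starProjection x‖ ^ 2 with hr
  have h3 : Hn W W' x * ENNReal.ofReal (Real.exp (-r)) = 1 := by
    unfold Hn
    rw [← hr, ← ENNReal.ofReal_mul (Real.exp_pos _).le, ← Real.exp_add, add_neg_cancel,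
      Real.exp_zero, ENNReal.ofReal_one]
  calc df W' K x = (Hn W W' x * ENNReal.ofReal (Real.exp (-r))) * df W' K x := by
        rw [h3, one_mul]
    _ = Hn W W' x * (df W' K x * ENNReal.ofReal (Real.exp (-r))) := by ring
    _ ≤ Hn W W' x * (df W' K x
        * gaussianReal 0 1 (Ici ‖W'.starProjection x - W.starProjection x‖)) :=
        mul_le_mul' le_rfl (mul_le_mul' le_rfl h2)
    _ ≤ _ := mul_le_mul' le_rfl h1

/-- the same, in terms of `fib` -/
theorem harnack_fib {W W' : Submodule ℝ E} (h : W ≤ W') {K : Set E} (hK : IsClosed K)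
    (hKc : Convex ℝ K) (x : E) :
    fib W' (Kᶜ.indicator 1) x ≤ Hn W W' x * fib W (Kᶜ.indicator 1) x := harnack h hK hKc x

/-- the Harnack inequality for the maximum over any family of bodies -/
theorem harnack_iSup {ι : Sort*} {W W' : Submodule ℝ E} (h : W ≤ W') {K : ι → Set E}
    (hK : ∀ i, IsClosed (K i)) (hKc : ∀ i, Convex ℝ (K i)) (x : E) :
    ⨆ i, df W' (K i) x ≤ Hn W W' x * ⨆ i, df W (K i) x :=
  iSup_le fun i => (harnack h (hK i) (hKc i) x).trans (mul_le_mul' le_rfl
    (le_iSup (fun i => df W (K i) x) i))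

/-- the Harnack factor along a chain -/
lemma Hn_mul_Hn {W W' W'' : Submodule ℝ E} (h : W ≤ W') (h' : W' ≤ W'') (x : E) :
    Hn W W' x * Hn W' W'' x = ENNReal.ofReal (Real.exp 9) * Hn W W'' x := by
  have e : ‖W''.starProjection x - W.starProjection x‖ ^ 2
      = ‖W'.starProjection x - W.starProjection x‖ ^ 2
        + ‖W''.starProjection x - W'.starProjection x‖ ^ 2 := by
    have h1 : W''.starProjection x - W.starProjection x
        = (W'.starProjection x - W.starProjection x)
          + (W''.starProjection x - W'.starProjection x) := by abel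
    have h2 : W'.starProjection x - W.starProjection x ∈ W' :=
      W'.sub_mem (Submodule.starProjection_apply_mem W' x) (h (Submodule.starProjection_apply_mem W x))
    have h3 : W''.starProjection x - W'.starProjection x ∈ W'ᗮ := by
      have e1 : W'.starProjection (W''.starProjection x) = W'.starProjection x :=
        Vale.Agent.P262.H962.proj_of_le h' x
      rw [← e1]
      exact Submodule.sub_starProjection_mem_orthogonal _
    have h4 : ⟪W'.starProjection x - W.starProjection x,
        W''.starProjection x - W'.starProjection x⟫ = 0 :=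
      Submodule.inner_right_of_mem_orthogonal h2 h3
    rw [h1, norm_add_sq_real, h4]
    ring
  unfold Hn
  rw [← ENNReal.ofReal_mul (Real.exp_pos _).le, ← ENNReal.ofReal_mul (Real.exp_pos _).le,
    ← Real.exp_add, ← Real.exp_add, e]
  congr 2
  ring

/-- powers of the Harnack factor times a Gaussian weight -/
lemma Hn_rpow_mul (W W' : Submodule ℝ E) (a b : ℝ) (x : E) :
    Hn W W' x ^ a
      * ENNReal.ofReal (Real.exp (b * ‖W'.starProjection x - W.starProjection x‖ ^ 2))
      = ENNReal.ofReal (Real.exp (9 * a)) * ENNReal.ofReal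
        (Real.exp ((8 / 15 * a + b) * ‖W'.starProjection x - W.starProjection x‖ ^ 2)) := by
  unfold Hn
  rw [ENNReal.ofReal_rpow_of_pos (Real.exp_pos _), ← Real.exp_mul,
    ← ENNReal.ofReal_mul (Real.exp_pos _).le, ← ENNReal.ofReal_mul (Real.exp_pos _).le,
    ← Real.exp_add, ← Real.exp_add]
  congr 2
  ring

/-- moments of the Harnack factor, with a Gaussian weight -/
theorem fib_Hn_rpow {W W' : Submodule ℝ E} (h : W ≤ W') {a b : ℝ} (hab : 8 / 15 * a + b < 1 / 2)
    (x : E) :
    fib W (fun y => Hn W W' y ^ a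
      * ENNReal.ofReal (Real.exp (b * ‖W'.starProjection y - W.starProjection y‖ ^ 2))) x
      = ENNReal.ofReal (Real.exp (9 * a))
        * ENNReal.ofReal ((Real.sqrt (1 - 2 * (8 / 15 * a + b)))⁻¹) ^
          (Module.finrank ℝ W' - Module.finrank ℝ W) := by
  simp only [Hn_rpow_mul]
  have hm : Measurable fun y : E => ENNReal.ofReal
      (Real.exp ((8 / 15 * a + b) * ‖W'.starProjection y - W.starProjection y‖ ^ 2)) :=
    ENNReal.measurable_ofReal.comp (by fun_prop)
  rw [fib_mul (inv_const W (ENNReal.ofReal (Real.exp (9 * a)))) hm, fib_exp_incr h hab]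

/-- moments of the Harnack factor -/
theorem fib_Hn {W W' : Submodule ℝ E} (h : W ≤ W') {a : ℝ} (ha : 8 / 15 * a < 1 / 2) (x : E) :
    fib W (fun y => Hn W W' y ^ a) x
      = ENNReal.ofReal (Real.exp (9 * a))
        * ENNReal.ofReal ((Real.sqrt (1 - 2 * (8 / 15 * a)))⁻¹) ^
          (Module.finrank ℝ W' - Module.finrank ℝ W) := by
  have h1 := fib_Hn_rpow h (a := a) (b := 0) (by linarith) x
  simp only [zero_mul, Real.exp_zero, ENNReal.ofReal_one, mul_one, add_zero] at h1
  exact h1

end Vale.Agent.P262.H439
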