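import Vale.Agent.P262.H431.Thr6
import Vale.Agent.P262.H439.GP

/-!
# P262, block THR0: payoffs which are paid by the alive mass of the class 0 chain

`Pay V W q a K f C`: below every healthy root and along every healthy class 0 chain, the weighted
average of the payoff `f` of the labels of `W` is at most `C` times the alive mass of the chain.
`pay_line` (lattice runs in a good region), `pay_alive` (payoffs on good labels).
-/

set_option linter.all false

open MeasureTheory Set Filter ProbabilityTheory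
open scoped ENNReal NNReal Topology RealInnerProductSpace

namespace Vale.Agent.P262.H439

open Vale.Agent.P262.H395 Vale.Agent.P262.H431
open Vale.Agent.P262.H44 (InvS)
open Vale.Agent.P262.H493 (ee kk)
open Vale.Agent.P262.H606 (dw continuous_dw infDist_add)
open Vale.Agent.P262.H962 (PB CB PB_cyl capS)
open Vale.Agent.P262.Cons493 (avoid sT reg_sT valid_sT Chn)

variable {E : Type*} [NormedAddCommGroup E] [InnerProductSpace ℝ E] [FiniteDimensional ℝ E]
  [MeasurableSpace E] [BorelSpace E]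

lemma fib_tsum (W : Submodule ℝ E) {f : ℕ → E → ℝ≥0∞} (hf : ∀ i, Measurable (f i)) (x : E) :
    fib W (fun y => ∑' i, f i y) x = ∑' i, fib W (f i) x :=
  lintegral_tsum fun i => ((hf i).comp (measurable_mix_right W x)).aemeasurable

lemma fib_sum (W : Submodule ℝ E) {ι : Type*} (s : Finset ι) {f : ι → E → ℝ≥0∞}
    (hf : ∀ i ∈ s, Measurable (f i)) (x : E) :
    fib W (fun y => ∑ i ∈ s, f i y) x = ∑ i ∈ s, fib W (f i) x :=
  lintegral_finset_sum' s fun i hi => ((hf i hi).comp (measurable_mix_right W x)).aemeasurable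

/-! ### the good part with a variable step -/

/-- one line, hypotheses only on this line -/
lemma gp_line' {W : Submodule ℝ E} {e : E} (he : ‖e‖ = 1) (heW : e ∈ W) {w τ : E → ℝ≥0∞}
    (hwm : Measurable w) (hτm : Measurable τ) (hw : Inv W w) {K : Set E} (hK : MeasurableSet K)
    {G : Set E} (hGm : MeasurableSet G) (x : E) (hGc : OrdConnected {t : ℝ | pt e x t ∈ G})
    {κ : ℝ≥0∞} (hκ : κ ≠ 0) (hκt : κ ≠ ⊤) (hG : ∀ y ∈ G, κ ≤ fib W (K.indicator 1) y)
    {h : ℝ} (hh : 0 < h) {B : ℝ≥0∞}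
    (hrun : ∀ (t : ℝ) (J : ℕ), (∀ j ≤ J, pt e x t + ((j : ℝ) * h) • e ∈ G) →
      ∑ j ∈ Finset.range (J + 1), τ (pt e x t + ((j : ℝ) * h) • e) ≤ B) :
    fib (ℝ ∙ e)ᗮ (fun y => w y * G.indicator τ y) x
      ≤ kk * (κ⁻¹ * (fib W (mL w K e) x * (ENNReal.ofReal h * B))) := by
  have hm : Measurable fun y => w y * G.indicator τ y := hwm.mul (hτm.indicator hGm)
  rw [fib_line_vol he hm]
  refine mul_le_mul' le_rfl ?_
  have hptm : Measurable fun t : ℝ => pt e x t := (continuous_pt_right e x).measurable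
  have hstep : ∀ (t s : ℝ), pt e x (t + s) = pt e x t + s • e := by
    intro t s
    unfold pt
    module
  -- the lattice bound on the line
  have h1 : ∫⁻ t, G.indicator τ (pt e x t) ≤ ENNReal.ofReal h * B := by
    apply lint_lattice ((hτm.indicator hGm).comp hptm) hh
    intro t n
    have h2 := sum_runs_ind hGc (τ := fun t => τ (pt e x t)) hh (B := B) ?_ t n
    · refine le_trans (le_of_eq ?_) h2
      apply Finset.sum_congr rfl
      intro j _
      show G.indicator τ (pt e x (t + j * h)) = _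
      by_cases hj : pt e x (t + j * h) ∈ G
      · rw [indicator_of_mem hj, indicator_of_mem (show t + j * h ∈ {t : ℝ | pt e x t ∈ G} from hj)]
      · rw [indicator_of_notMem hj,
          indicator_of_notMem (show t + j * h ∉ {t : ℝ | pt e x t ∈ G} from hj)]
    · intro t J hJ
      have h3 := hrun t J (fun j hj => by rw [← hstep]; exact hJ j hj)
      simp only [hstep]
      exact h3
  -- pointwise
  have h5 : ∀ t, ee t * (w (pt e x t) * G.indicator τ (pt e x t))
      ≤ (κ⁻¹ * fib W (mL w K e) x) * G.indicator τ (pt e x t) := by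
    intro t
    by_cases ht : pt e x t ∈ G
    · have h6 := good_le_mL he heW hw hK hG x t
      rw [indicator_of_mem ht] at h6
      have h7 : ee t * w (pt e x t) ≤ κ⁻¹ * fib W (mL w K e) x := by
        calc ee t * w (pt e x t) = κ⁻¹ * (κ * (ee t * w (pt e x t))) := by
              rw [← mul_assoc, ENNReal.inv_mul_cancel hκ hκt, one_mul]
          _ ≤ _ := mul_le_mul' le_rfl h6
      rw [← mul_assoc]
      exact mul_le_mul' h7 le_rfl
    · rw [indicator_of_notMem ht, mul_zero, mul_zero, mul_zero]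
  calc ∫⁻ t, ee t * (w (pt e x t) * G.indicator τ (pt e x t))
      ≤ ∫⁻ t, (κ⁻¹ * fib W (mL w K e) x) * G.indicator τ (pt e x t) := lintegral_mono h5
    _ = (κ⁻¹ * fib W (mL w K e) x) * ∫⁻ t, G.indicator τ (pt e x t) :=
        lintegral_const_mul _ ((hτm.indicator hGm).comp hptm)
    _ ≤ (κ⁻¹ * fib W (mL w K e) x) * (ENNReal.ofReal h * B) := mul_le_mul' le_rfl h1
    _ = _ := mul_assoc _ _ _

/-- **good part, variable step.** `Q` bounds (step) times (lattice sums over runs in `G`). -/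
theorem gp' {W00 V W : Submodule ℝ E} (h0 : W00 ≤ V) (hVW : V ≤ W) {e : E} (he : ‖e‖ = 1)
    (heW : e ∈ W) (heV : e ∈ Vᗮ) {w τ Q Om : E → ℝ≥0∞} (hwc : Continuous w)
    (hwt : ∀ x, w x ≠ ⊤) (hτm : Measurable τ) (hQm : Measurable Q) (hOm : Measurable Om)
    (hw : Inv W w) (hQi : Inv W Q) (hOi : Inv V Om) {K : Set E} (hK : IsCompact K)
    {G : Set E} (hGm : MeasurableSet G) (hGc : ∀ x, OrdConnected {t : ℝ | pt e x t ∈ G})
    {κ : ℝ≥0∞} (hκ : κ ≠ 0) (hκt : κ ≠ ⊤) (hG : ∀ y ∈ G, κ ≤ fib W (K.indicator 1) y)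
    {h : E → ℝ} (hh : ∀ x, 0 < h x) (hhe : ∀ y (s : ℝ), h (y + s • e) = h y)
    {B : E → ℝ≥0∞} (hBe : ∀ y (s : ℝ), B (y + s • e) = B y)
    (hrun : ∀ y (J : ℕ), (∀ j ≤ J, y + ((j : ℝ) * h y) • e ∈ G) →
      ∑ j ∈ Finset.range (J + 1), τ (y + ((j : ℝ) * h y) • e) ≤ B y)
    (hQ : ∀ y, ENNReal.ofReal (h y) * B y ≤ Q y) (x0 : E) :
    fib W00 (fun x => Om x * (w x * G.indicator τ x)) x0
      ≤ (kk * κ⁻¹) * fib W00 (fun x => Om x * (Q x * mL w K e x)) x0 := by
  have hwm := hwc.measurable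
  have heO : V ≤ (ℝ ∙ e)ᗮ := by
    rw [← Submodule.orthogonal_orthogonal V]
    apply Submodule.orthogonal_le
    rw [Submodule.span_le, singleton_subset_iff]
    exact heV
  have hmL : Measurable (mL w K e) := (usc_mL he hwc hwt hK).measurable
  have hOe : Inv (ℝ ∙ e)ᗮ Om := hOi.mono heO
  have m1 : Measurable fun y => w y * G.indicator τ y := hwm.mul (hτm.indicator hGm)
  have mF : Measurable (fib W (mL w K e)) := measurable_fib hmL
  have e1 : fib W00 (fun x => Om x * (w x * G.indicator τ x)) x0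
      = fib W00 (fun x => Om x * fib (ℝ ∙ e)ᗮ (fun y => w y * G.indicator τ y) x) x0 := by
    rw [← fib_tower (h0.trans heO) (f := fun x => Om x * (w x * G.indicator τ x)) (hOm.mul m1)]
    congr 1
    funext x
    exact fib_mul hOe m1 x
  have e2 : fib W00 (fun x => Om x * (Q x * mL w K e x)) x0
      = fib W00 (fun x => (Om x * Q x) * fib W (mL w K e) x) x0 := by
    have h1 : (fun x => Om x * (Q x * mL w K e x)) = fun x => (Om x * Q x) * mL w K e x := by
      funext x; ring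
    rw [h1, ← fib_tower (h0.trans hVW) (f := fun x => (Om x * Q x) * mL w K e x)
      ((hOm.mul hQm).mul hmL)]
    congr 1
    funext x
    exact fib_mul ((hOi.mono hVW).mul hQi) hmL x
  rw [e1, e2]
  have e3 : (kk * κ⁻¹) * fib W00 (fun x => (Om x * Q x) * fib W (mL w K e) x) x0
      = fib W00 (fun x => (kk * κ⁻¹)
        * ((Om x * Q x) * fib W (mL w K e) x)) x0 := by
    exact (fib_mul (inv_const W00 (kk * κ⁻¹))
      (f := fun x => (Om x * Q x) * fib W (mL w K e) x) ((hOm.mul hQm).mul mF) x0).symm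
  rw [e3]
  apply fib_mono
  intro x
  have hl := gp_line' he heW hwm hτm hw hK.measurableSet hGm x (hGc x) hκ hκt hG (hh x)
    (B := B x) (fun t J hJ => by
      have e4 : h (pt e x t) = h x := hhe x (t - ⟪e, x⟫)
      have e5 : B (pt e x t) = B x := hBe x (t - ⟪e, x⟫)
      have h3 := hrun (pt e x t) J (fun j hj => by rw [e4]; exact hJ j hj)
      rw [e4, e5] at h3
      exact h3)
  calc Om x * fib (ℝ ∙ e)ᗮ (fun y => w y * G.indicator τ y) x
      ≤ Om x * (kk * (κ⁻¹ * (fib W (mL w K e) x * (ENNReal.ofReal (h x) * B x)))) :=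
        mul_le_mul' le_rfl hl
    _ ≤ Om x * (kk * (κ⁻¹ * (fib W (mL w K e) x * Q x))) := by
        gcongr
        exact hQ x
    _ = _ := by ring

/-! ### payoffs -/

/-- the weighted average of the payoff `f` over every healthy class 0 chain (parent space `V`,
label space `W`) is at most `C` times the alive mass -/
def Pay (V W : Submodule ℝ E) (q a : ℝ) (K : Set E) (f : E → ℝ≥0∞) (C : ℝ≥0∞) : Prop :=
  ∀ (l0 l' : List (Submodule ℝ E)) (L : List (Submodule ℝ E × Set E)) (W0 : Submodule ℝ E),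
    FlagC l0 l' L W0 V W →
    (∀ p ∈ L, ∀ x ∈ p.2, ENNReal.ofReal (4 / 5) ≤ fib p.1 (K.indicator 1) x) →
    ∀ x0, ENNReal.ofReal (2 / 3) ≤ fib W0 (K.indicator 1) x0 →
    fib W0 (fun x => (avoid L).indicator 1 x *
        (dw a (PB ((l0 ++ L.map Prod.fst) ++ l') q) x * f x)) x0 ≤
      C * fib W0 ((avoid L).indicator (K.indicator (dw a (PB (l0 ++ L.map Prod.fst) q)))) x0

section pay

variable {V W : Submodule ℝ E} {q a : ℝ} {K : Set E} {f g : E → ℝ≥0∞} {C C' : ℝ≥0∞}

lemma Pay.mono (h : Pay V W q a K g C) (hfg : ∀ x, f x ≤ g x) (hC : C ≤ C') :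
    Pay V W q a K f C' := by
  intro l0 l' L W0 F hg x0 hr
  refine le_trans (fib_mono (fun x => ?_) x0) ((h l0 l' L W0 F hg x0 hr).trans
    (mul_le_mul' hC le_rfl))
  exact mul_le_mul' le_rfl (mul_le_mul' le_rfl (hfg x))

lemma measurableSet_avoid {l0 l' : List (Submodule ℝ E)} {L : List (Submodule ℝ E × Set E)}
    {W0 : Submodule ℝ E} (F : FlagC l0 l' L W0 V W) : MeasurableSet (avoid L) := by
  have hLp : (L.map Prod.fst).Pairwise (· < ·) := (List.pairwise_append.mp F.hL).1
  have hLp0 : ∀ V ∈ L.map Prod.fst, W0 < V := fun V hV => F.hL0 V (by simp [hV])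
  have hchn : Chn L W0 := Chn.of_list hLp hLp0 F.hD
  rw [← reg_sT]
  exact Vale.Agent.P262.H44.STree.measurableSet_reg _ (valid_sT hchn)

lemma inv_avoid {l0 l' : List (Submodule ℝ E)} {L : List (Submodule ℝ E × Set E)}
    {W0 : Submodule ℝ E} (F : FlagC l0 l' L W0 V W) :
    Inv V ((avoid L).indicator (1 : E → ℝ≥0∞)) := by
  intro x v hv
  by_cases hx : x ∈ avoid L
  · rw [indicator_of_mem hx, indicator_of_mem ((F.hVin x v hv).mpr hx)]
    rfl
  · rw [indicator_of_notMem hx, indicator_of_notMem (fun h => hx ((F.hVin x v hv).mp h))]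

lemma inv_dw_flag {l0 l' : List (Submodule ℝ E)} {L : List (Submodule ℝ E × Set E)}
    {W0 : Submodule ℝ E} (F : FlagC l0 l' L W0 V W) (a q : ℝ) :
    Inv W (dw a (PB ((l0 ++ L.map Prod.fst) ++ l') q)) := by
  intro x v hv
  unfold Vale.Agent.P262.H606.dw
  have hcyl : ∀ x, ∀ v ∈ Wᗮ, (x + v ∈ PB ((l0 ++ L.map Prod.fst) ++ l') q ↔
      x ∈ PB ((l0 ++ L.map Prod.fst) ++ l') q) := by
    intro x v hv
    refine PB_cyl (fun U hU => ?_) x v hv
    rcases List.mem_append.mp hU with h | h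
    · rcases List.mem_append.mp h with h | h
      · exact ((F.h1 U h).trans F.hV0).trans F.hVW
      · obtain ⟨p, hp, rfl⟩ := List.mem_map.mp h
        exact (F.hVL p hp).trans F.hVW
    · exact F.hl' U h
  rw [infDist_add hcyl x hv]

/-- countable sums -/
lemma Pay.tsum {f : ℕ → E → ℝ≥0∞} {C : ℕ → ℝ≥0∞} (hf : ∀ i, Measurable (f i))
    (h : ∀ i, Pay V W q a K (f i) (C i)) :
    Pay V W q a K (fun x => ∑' i, f i x) (∑' i, C i) := by
  intro l0 l' L W0 F hg x0 hr
  have hm := measurableSet_avoid F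
  have hd : Measurable (dw a (PB ((l0 ++ L.map Prod.fst) ++ l') q)) :=
    (continuous_dw _ _).measurable
  have e1 : (fun x => (avoid L).indicator (1 : E → ℝ≥0∞) x *
      (dw a (PB ((l0 ++ L.map Prod.fst) ++ l') q) x * ∑' i, f i x)) = fun x => ∑' i,
        ((avoid L).indicator (1 : E → ℝ≥0∞) x *
          (dw a (PB ((l0 ++ L.map Prod.fst) ++ l') q) x * f i x)) := by
    funext x
    rw [ENNReal.tsum_mul_left, ENNReal.tsum_mul_left]
  have hmf : ∀ i, Measurable fun x => (avoid L).indicator (1 : E → ℝ≥0∞) x *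
      (dw a (PB ((l0 ++ L.map Prod.fst) ++ l') q) x * f i x) :=
    fun i => (measurable_one.indicator hm).mul (hd.mul (hf i))
  rw [e1, fib_tsum W0 hmf, ← ENNReal.tsum_mul_right]
  exact ENNReal.tsum_le_tsum fun i => h i l0 l' L W0 F hg x0 hr

/-- finite sums -/
lemma Pay.sum {ι : Type*} (s : Finset ι) {f : ι → E → ℝ≥0∞} {C : ι → ℝ≥0∞}
    (hf : ∀ i ∈ s, Measurable (f i)) (h : ∀ i ∈ s, Pay V W q a K (f i) (C i)) :
    Pay V W q a K (fun x => ∑ i ∈ s, f i x) (∑ i ∈ s, C i) := by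
  intro l0 l' L W0 F hg x0 hr
  have hm := measurableSet_avoid F
  have hd : Measurable (dw a (PB ((l0 ++ L.map Prod.fst) ++ l') q)) :=
    (continuous_dw _ _).measurable
  have e1 : (fun x => (avoid L).indicator (1 : E → ℝ≥0∞) x *
      (dw a (PB ((l0 ++ L.map Prod.fst) ++ l') q) x * ∑ i ∈ s, f i x)) = fun x => ∑ i ∈ s,
        ((avoid L).indicator (1 : E → ℝ≥0∞) x *
          (dw a (PB ((l0 ++ L.map Prod.fst) ++ l') q) x * f i x)) := by
    funext x
    rw [Finset.mul_sum, Finset.mul_sum]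
  have hmf : ∀ i ∈ s, Measurable fun x => (avoid L).indicator (1 : E → ℝ≥0∞) x *
      (dw a (PB ((l0 ++ L.map Prod.fst) ++ l') q) x * f i x) :=
    fun i hi => (measurable_one.indicator hm).mul (hd.mul (hf i hi))
  rw [e1, fib_sum W0 s hmf, Finset.sum_mul]
  exact Finset.sum_le_sum fun i hi => h i hi l0 l' L W0 F hg x0 hr

lemma Pay.add (hf : Measurable f) (hf' : Pay V W q a K f C) (hg : Pay V W q a K g C') :
    Pay V W q a K (fun x => f x + g x) (C + C') := by
  intro l0 l' L W0 F hgd x0 hr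
  have hm := measurableSet_avoid F
  have hd : Measurable (dw a (PB ((l0 ++ L.map Prod.fst) ++ l') q)) :=
    (continuous_dw _ _).measurable
  have e1 : (fun x => (avoid L).indicator (1 : E → ℝ≥0∞) x *
      (dw a (PB ((l0 ++ L.map Prod.fst) ++ l') q) x * (f x + g x))) = fun x =>
        ((avoid L).indicator (1 : E → ℝ≥0∞) x *
          (dw a (PB ((l0 ++ L.map Prod.fst) ++ l') q) x * f x)) +
        ((avoid L).indicator (1 : E → ℝ≥0∞) x *
          (dw a (PB ((l0 ++ L.map Prod.fst) ++ l') q) x * g x)) := by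
    funext x
    rw [mul_add, mul_add]
  have hmf : Measurable fun x => (avoid L).indicator (1 : E → ℝ≥0∞) x *
      (dw a (PB ((l0 ++ L.map Prod.fst) ++ l') q) x * f x) :=
    (measurable_one.indicator hm).mul (hd.mul hf)
  rw [e1, fib_add hmf, add_mul]
  exact add_le_add (hf' l0 l' L W0 F hgd x0 hr) (hg l0 l' L W0 F hgd x0 hr)

/-- constant factors -/
lemma Pay.const_mul (c : ℝ≥0∞) (hf : Measurable f) (h : Pay V W q a K f C) :
    Pay V W q a K (fun x => c * f x) (c * C) := by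
  intro l0 l' L W0 F hgd x0 hr
  have hm := measurableSet_avoid F
  have hd : Measurable (dw a (PB ((l0 ++ L.map Prod.fst) ++ l') q)) :=
    (continuous_dw _ _).measurable
  have e1 : (fun x => (avoid L).indicator (1 : E → ℝ≥0∞) x *
      (dw a (PB ((l0 ++ L.map Prod.fst) ++ l') q) x * (c * f x))) = fun x => c *
        ((avoid L).indicator (1 : E → ℝ≥0∞) x *
          (dw a (PB ((l0 ++ L.map Prod.fst) ++ l') q) x * f x)) := by
    funext x
    ring
  have e2 : fib W0 (fun x => c * ((avoid L).indicator (1 : E → ℝ≥0∞) x *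
          (dw a (PB ((l0 ++ L.map Prod.fst) ++ l') q) x * f x))) x0 =
      c * fib W0 (fun x => (avoid L).indicator (1 : E → ℝ≥0∞) x *
          (dw a (PB ((l0 ++ L.map Prod.fst) ++ l') q) x * f x)) x0 :=
    fib_mul (inv_const W0 c) ((measurable_one.indicator hm).mul (hd.mul hf)) x0
  rw [e1, e2, mul_assoc]
  exact mul_le_mul' le_rfl (h l0 l' L W0 F hgd x0 hr)

/-- constant of the two payoff theorems -/
noncomputable def cPay : ℝ := 2 * cL1

lemma kk_le_one : kk ≤ 1 := by
  unfold kk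
  rw [← ENNReal.ofReal_one]
  apply ENNReal.ofReal_le_ofReal
  rw [inv_le_one_iff₀]
  right
  rw [Real.one_le_sqrt]
  have := Real.pi_gt_three
  linarith

/-- **lattice runs**: a countable family of payoffs (layers) in one direction -/
theorem pay_line (hK : IsCompact K) (hKc : Convex ℝ K) {R : ℝ}
    (hKR : K ⊆ Metric.closedBall 0 R) (hVW : V ≤ W) (hq : 100 ≤ q) (ha0 : 0 ≤ a)
    (ha : a ≤ 1 / 16) {e : E} (he : ‖e‖ = 1) (heW : e ∈ W) (heV : e ∈ Vᗮ)
    {b : E} (hb1 : ‖b‖ ≤ 1) (hbV : b ∈ Vᗮ) (hbe : ⟪b, e⟫ = 0)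
    {G : Set E} (hGm : MeasurableSet G) (hGc : ∀ x, OrdConnected {t : ℝ | pt e x t ∈ G})
    (hG : ∀ y ∈ G, ENNReal.ofReal (1 / 2) ≤ fib W (K.indicator 1) y)
    {τ B Q : ℕ → E → ℝ≥0∞} {h : ℕ → E → ℝ} (hτm : ∀ i, Measurable (τ i))
    (hQm : ∀ i, Measurable (Q i)) (hQi : ∀ i, Inv W (Q i)) (hh : ∀ i x, 0 < h i x)
    (hhe : ∀ i y (s : ℝ), h i (y + s • e) = h i y) (hBe : ∀ i y (s : ℝ), B i (y + s • e) = B i y)
    (hrun : ∀ i y (J : ℕ), (∀ j ≤ J, y + ((j : ℝ) * h i y) • e ∈ G) →
      ∑ j ∈ Finset.range (J + 1), τ i (y + ((j : ℝ) * h i y) • e) ≤ B i y)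
    (hQ : ∀ i y, ENNReal.ofReal (h i y) * B i y ≤ Q i y) {C1 : ℝ≥0∞}
    (hsum : ∀ x, ∑' i, Q i x ≤ C1 * ENNReal.ofReal (1 + |⟪b, x⟫|)) :
    Pay V W q a K (G.indicator fun x => ∑' i, τ i x) (C1 * ENNReal.ofReal cPay) := by
  intro l0 l' L W0 F hgd x0 hr
  have hm := measurableSet_avoid F
  set w := dw a (PB ((l0 ++ L.map Prod.fst) ++ l') q) with hw
  have hwc : Continuous w := continuous_dw _ _
  have hwt : ∀ x, w x ≠ ⊤ := fun x => dw_ne_top' _ _ x
  set Om : E → ℝ≥0∞ := (avoid L).indicator 1 with hOmdef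
  have hOm : Measurable Om := measurable_one.indicator hm
  have hκ : ENNReal.ofReal (1 / 2) ≠ 0 := by
    rw [Ne, ENNReal.ofReal_eq_zero]; norm_num
  have hmL : Measurable (mL w K e) := (usc_mL he hwc hwt hK).measurable
  have e1 : (fun x => Om x * (w x * G.indicator (fun x => ∑' i, τ i x) x)) = fun x => ∑' i,
      (Om x * (w x * G.indicator (τ i) x)) := by
    funext x
    rw [ENNReal.tsum_mul_left, ENNReal.tsum_mul_left]
    by_cases hx : x ∈ G
    · simp only [indicator_of_mem hx]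
    · simp only [indicator_of_notMem hx, tsum_zero]
  have e2 : fib W0 (fun x => ∑' i, (Om x * (w x * G.indicator (τ i) x))) x0 =
      ∑' i, fib W0 (fun x => Om x * (w x * G.indicator (τ i) x)) x0 :=
    fib_tsum W0 (fun i => hOm.mul (hwc.measurable.mul ((hτm i).indicator hGm))) x0
  rw [e1, e2]
  have h1 : ∀ i, fib W0 (fun x => Om x * (w x * G.indicator (τ i) x)) x0 ≤
      2 * fib W0 (fun x => Om x * (Q i x * mL w K e x)) x0 := by
    intro i
    refine (gp' F.hV0 hVW he heW heV hwc hwt (hτm i) (hQm i) hOm (inv_dw_flag F a q) (hQi i)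
      (inv_avoid F) hK hGm hGc hκ ENNReal.ofReal_ne_top hG (hh i) (hhe i) (hBe i) (hrun i) (hQ i)
      x0).trans (mul_le_mul' ?_ le_rfl)
    calc kk * (ENNReal.ofReal (1 / 2))⁻¹ ≤ 1 * (ENNReal.ofReal (1 / 2))⁻¹ :=
          mul_le_mul' kk_le_one le_rfl
      _ = 2 := by
          rw [one_mul, ← ENNReal.ofReal_inv_of_pos (by norm_num)]
          norm_num
  have e3 : ∑' i, fib W0 (fun x => Om x * (Q i x * mL w K e x)) x0 =
      fib W0 (fun x => Om x * ((∑' i, Q i x) * mL w K e x)) x0 := by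
    have : (fun x => Om x * ((∑' i, Q i x) * mL w K e x)) = fun x => ∑' i,
        (Om x * (Q i x * mL w K e x)) := by
      funext x
      rw [ENNReal.tsum_mul_left, ENNReal.tsum_mul_right]
    have hmf : ∀ i, Measurable fun x => Om x * (Q i x * mL w K e x) :=
      fun i => hOm.mul ((hQm i).mul hmL)
    rw [this, fib_tsum W0 hmf]
  have h2 : fib W0 (fun x => Om x * ((∑' i, Q i x) * mL w K e x)) x0 ≤
      C1 * fib W0 (fun x => Om x * (ENNReal.ofReal (1 + |⟪b, x⟫|) * mL w K e x)) x0 := by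
    have hm2 : Measurable fun x => Om x * (ENNReal.ofReal (1 + |⟪b, x⟫|) * mL w K e x) :=
      hOm.mul (Measurable.mul (by fun_prop) hmL)
    rw [← fib_mul (inv_const W0 C1) hm2]
    refine fib_mono (fun x => ?_) x0
    calc Om x * ((∑' i, Q i x) * mL w K e x) ≤
          Om x * ((C1 * ENNReal.ofReal (1 + |⟪b, x⟫|)) * mL w K e x) := by
          gcongr
          exact hsum x
      _ = _ := by ring
  have h3 := term_line (K := K) (R := R) (q := q) (a := a) (l0 := l0) (l' := l') (W0 := W0)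
    (V := V) (L := L) (b := b) hKc hK hKR hq ha0 ha F.h1 F.hW0 F.hL F.hL0 F.hV0 F.hVL F.hD hgd
    hb1 hbV (e := e) (Or.inl he) heV hbe x0 hr
  calc ∑' i, fib W0 (fun x => Om x * (w x * G.indicator (τ i) x)) x0
      ≤ ∑' i, 2 * fib W0 (fun x => Om x * (Q i x * mL w K e x)) x0 := ENNReal.tsum_le_tsum h1
    _ = 2 * fib W0 (fun x => Om x * ((∑' i, Q i x) * mL w K e x)) x0 := by
        rw [ENNReal.tsum_mul_left, e3]
    _ ≤ 2 * (C1 * (ENNReal.ofReal cL1 * fib W0 ((avoid L).indicator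
          (K.indicator (dw a (PB (l0 ++ L.map Prod.fst) q)))) x0)) := by
        refine mul_le_mul' le_rfl (h2.trans (mul_le_mul' le_rfl ?_))
        exact h3
    _ = _ := by
        unfold cPay
        rw [ENNReal.ofReal_mul (by norm_num)]
        simp only [ENNReal.ofReal_ofNat]
        ring

/-- **payoffs on good labels** -/
theorem pay_alive (hK : IsCompact K) (hKc : Convex ℝ K) {R : ℝ}
    (hKR : K ⊆ Metric.closedBall 0 R) (hVW : V ≤ W) (hq : 100 ≤ q) (ha0 : 0 ≤ a)
    (ha : a ≤ 1 / 16) {b : E} (hb1 : ‖b‖ ≤ 1) (hbV : b ∈ Vᗮ) (hbW : b ∈ W)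
    {G : Set E}
    (hG : ∀ y ∈ G, ENNReal.ofReal (1 / 2) ≤ fib W (K.indicator 1) y) {C1 : ℝ≥0∞}
    (hf : ∀ x ∈ G, f x ≤ C1 * ENNReal.ofReal (1 + |⟪b, x⟫|)) :
    Pay V W q a K (G.indicator f) (C1 * ENNReal.ofReal cPay) := by
  intro l0 l' L W0 F hgd x0 hr
  have hm := measurableSet_avoid F
  set w := dw a (PB ((l0 ++ L.map Prod.fst) ++ l') q) with hw
  have hwc : Continuous w := continuous_dw _ _
  set Om : E → ℝ≥0∞ := (avoid L).indicator 1 with hOmdef
  have hOm : Measurable Om := measurable_one.indicator hm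
  have hwi : Inv W w := inv_dw_flag F a q
  have hOi : Inv W Om := (inv_avoid F).mono hVW
  have hbi : Inv W fun x => ENNReal.ofReal (1 + |⟪b, x⟫|) := by
    intro x v hv
    have : ⟪b, v⟫ = 0 := (Submodule.mem_orthogonal W v).mp hv b hbW
    simp only [inner_add_right, this, add_zero]
  have hbm : Measurable fun x : E => ENNReal.ofReal (1 + |⟪b, x⟫|) := by fun_prop
  have hκ : ENNReal.ofReal (1 / 2) ≠ 0 := by
    rw [Ne, ENNReal.ofReal_eq_zero]; norm_num
  have hKm := hK.measurableSet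
  have h3 := term_alive (K := K) (R := R) (q := q) (a := a) (l0 := l0) (l' := l') (W0 := W0)
    (V := V) (L := L) (b := b) hKc hK hKR hq ha0 ha F.h1 F.hW0 F.hL F.hL0 F.hV0 F.hVL F.hD hgd
    hb1 hbV x0 hr
  -- the alive mass in the fibres of the labels
  have e1 : fib W0 (fun x => Om x * (ENNReal.ofReal (1 + |⟪b, x⟫|) * (w x * K.indicator 1 x))) x0 =
      fib W0 (fun x => (Om x * (ENNReal.ofReal (1 + |⟪b, x⟫|) * w x)) *
        fib W (K.indicator 1) x) x0 := by
    have h1 : (fun x => Om x * (ENNReal.ofReal (1 + |⟪b, x⟫|) * (w x * K.indicator 1 x))) =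
        fun x => (Om x * (ENNReal.ofReal (1 + |⟪b, x⟫|) * w x)) * K.indicator 1 x := by
      funext x; ring
    have hmm : Measurable fun x => (Om x * (ENNReal.ofReal (1 + |⟪b, x⟫|) * w x)) *
        K.indicator 1 x :=
      (hOm.mul (hbm.mul hwc.measurable)).mul (measurable_one.indicator hKm)
    rw [h1, ← fib_tower (F.hV0.trans hVW) hmm]
    congr 1
    funext x
    exact fib_mul (hOi.mul (hbi.mul hwi)) (measurable_one.indicator hKm) x
  have h2 : fib W0 (fun x => Om x * (w x * G.indicator f x)) x0 ≤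
      (2 * C1) * fib W0 (fun x => (Om x * (ENNReal.ofReal (1 + |⟪b, x⟫|) * w x)) *
        fib W (K.indicator 1) x) x0 := by
    have hm2 : Measurable fun x => (Om x * (ENNReal.ofReal (1 + |⟪b, x⟫|) * w x)) *
        fib W (K.indicator 1) x :=
      (hOm.mul (hbm.mul hwc.measurable)).mul (measurable_fib (measurable_one.indicator hKm))
    rw [← fib_mul (inv_const W0 (2 * C1)) hm2]
    refine fib_mono (fun x => ?_) x0
    by_cases hx : x ∈ G
    · rw [indicator_of_mem hx]
      have h4 : 1 ≤ 2 * fib W (K.indicator 1) x := by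
        calc (1 : ℝ≥0∞) = 2 * ENNReal.ofReal (1 / 2) := by
              rw [ENNReal.ofReal_div_of_pos (by norm_num)]
              simp only [ENNReal.ofReal_one, ENNReal.ofReal_ofNat, one_div]
              rw [ENNReal.mul_inv_cancel (by norm_num) (by norm_num)]
          _ ≤ _ := mul_le_mul' le_rfl (hG x hx)
      calc Om x * (w x * f x) ≤ Om x * (w x * (C1 * ENNReal.ofReal (1 + |⟪b, x⟫|))) := by
            gcongr
            exact hf x hx
        _ = (Om x * (w x * (C1 * ENNReal.ofReal (1 + |⟪b, x⟫|)))) * 1 := (mul_one _).symm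
        _ ≤ (Om x * (w x * (C1 * ENNReal.ofReal (1 + |⟪b, x⟫|)))) *
            (2 * fib W (K.indicator 1) x) := mul_le_mul' le_rfl h4
        _ = _ := by ring
    · rw [indicator_of_notMem hx, mul_zero, mul_zero]
      exact zero_le
  calc fib W0 (fun x => Om x * (w x * G.indicator f x)) x0
      ≤ (2 * C1) * (ENNReal.ofReal cL1 * fib W0 ((avoid L).indicator
          (K.indicator (dw a (PB (l0 ++ L.map Prod.fst) q)))) x0) := by
        refine h2.trans (mul_le_mul' le_rfl ?_)
        rw [← e1]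
        exact h3
    _ = _ := by
        unfold cPay
        rw [ENNReal.ofReal_mul (by norm_num)]
        simp only [ENNReal.ofReal_ofNat]
        ring

end pay

end Vale.Agent.P262.H439
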