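import Vale.Agent.P262.H431.Thr11
import Vale.Agent.P262.H711.Inst
import Vale.Agent.P262.H118.RotB
import Vale.Agent.P262.H837.Tau
import Vale.Agent.P262.H439.PayInt

/-!
# P262, block THR0, good part on the system of milestone 2

Labels of class `≥ 1` of the node `rk p k` (class 0 chain below the rotating node `0 :: p`): lattice
runs of (STAR') in the direction `θ` (with layers) and in the own directions of `b` above `rk p k`.
-/

set_option linter.all false

open MeasureTheory ProbabilityTheory Set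
open scoped ENNReal NNReal RealInnerProductSpace
open Vale.Agent.P262.H118 (ON rotE lyd nv sg la norm_nv nv_mem la_add measurableSet_la lyd_zero
  inner_mix_label mem_sg)
open Vale.Agent.P262.H395 (fib mix Inv measurable_fib fib_mono inv_fib)
open Vale.Agent.P262.H395.CW (pl nk nk_nil nk_cons OMp OMc Lab SI isClosed_unk convex_unk inv_nk)
open Vale.Agent.P262.H962 (capS measurable_capS)
open Vale.Agent.P262.H44 (InvS)
open Vale.Agent.P262.H439 (qq Pay)
open Vale.Agent.P262.H431

namespace Vale.Agent.P262.H439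

open Vale.Agent.P262.M2
open Vale.Agent.P262.M2.Sys

variable {E : Type*} [NormedAddCommGroup E] [InnerProductSpace ℝ E] [FiniteDimensional ℝ E]
  [MeasurableSpace E] [BorelSpace E] {S : Sys E}

/-! ### the good region -/

/-- unkilled labels of `p` -/
def nkS (S : Sys E) (p : List ℕ) (m : ℕ) : Set E :=
  nk (fun r => S.W r m) S.A0 S.kap S.qq (ENNReal.ofReal S.b0) p

lemma nkS_eq (S : Sys E) (p : List ℕ) (m : ℕ) : nkS S p m = (S.Z p m)ᶜ := nk_eq_c p m

/-- the body of the node without the outer kills -/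
def Ks (S : Sys E) (r p : List ℕ) (m : ℕ) : Set E := S.X r m ∩ nkS S p m

lemma isClosed_nkS (S : Sys E) (p : List ℕ) (m : ℕ) : IsClosed (nkS S p m) := isClosed_unk _ _

lemma convex_nkS (S : Sys E) (p : List ℕ) (m : ℕ) : Convex ℝ (nkS S p m) :=
  convex_unk S.hqq.le S.hA0 S.hkap _ _

lemma isCompact_Ks (S : Sys E) (r p : List ℕ) (m : ℕ) : IsCompact (Ks S r p m) :=
  (S.isCompact_X r m).inter_right (isClosed_nkS S p m)

lemma convex_Ks (S : Sys E) (r p : List ℕ) (m : ℕ) : Convex ℝ (Ks S r p m) :=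
  (S.convex_X r m).inter (convex_nkS S p m)

lemma Ks_subset (S : Sys E) (r p : List ℕ) (m : ℕ) : Ks S r p m ⊆ Metric.closedBall 0 S.R :=
  inter_subset_left.trans (S.X_subset_ball r m)

/-- good unkilled labels of `r` -/
def Gs (S : Sys E) (r p : List ℕ) (m : ℕ) : Set E := Gd S r m ∩ nkS S p m

lemma measurableSet_Gs (S : Sys E) (r p : List ℕ) (m : ℕ) : MeasurableSet (Gs S r p m) :=
  (measurableSet_Gd r m).inter (isClosed_nkS S p m).measurableSet

lemma convex_Gs (S : Sys E) (r p : List ℕ) (m : ℕ) : Convex ℝ (Gs S r p m) :=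
  (S.convex_kl r m 1).inter (convex_nkS S p m)

lemma ordConnected_Gs (S : Sys E) (r p : List ℕ) (m : ℕ) (e x : E) :
    OrdConnected {t : ℝ | pt e x t ∈ Gs S r p m} := by
  rw [ordConnected_iff_uIcc_subset]
  have h : Convex ℝ {t : ℝ | pt e x t ∈ Gs S r p m} := by
    intro s hs t ht a b ha hb hab
    have h1 := convex_Gs S r p m hs ht ha hb hab
    have h2 : a • pt e x s + b • pt e x t = pt e x (a • s + b • t) := by
      unfold pt
      have e1 : a • x + b • x = x := by rw [← add_smul, hab, one_smul]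
      have e2 : (a • s + b • t : ℝ) - ⟪e, x⟫ = a * (s - ⟪e, x⟫) + b * (t - ⟪e, x⟫) := by
        simp only [smul_eq_mul]
        have : ⟪e, x⟫ = (a + b) * ⟪e, x⟫ := by rw [hab, one_mul]
        linarith
      rw [e2, add_smul, mul_smul, mul_smul, smul_add, smul_add]
      calc a • x + a • (s - ⟪e, x⟫) • e + (b • x + b • (t - ⟪e, x⟫) • e) =
            (a • x + b • x) + (a • (s - ⟪e, x⟫) • e + b • (t - ⟪e, x⟫) • e) := by abel
        _ = _ := by rw [e1]
    rw [h2] at h1
    exact h1
  intro s hs t ht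
  rw [← segment_eq_uIcc]
  exact h.segment_subset hs ht

/-- over a good label the body is alive -/
lemma alive_Gs {m : ℕ} (hm : S.mv.tm m < S.T) {r p : List ℕ} (hpr : p <:+ r)
    (hSI : SI (fun r => S.W r m) p) :
    ∀ y ∈ Gs S r p m, ENNReal.ofReal (1 / 2) ≤ fib (S.W r m) ((Ks S r p m).indicator 1) y := by
  intro y hy
  have h0 : S.kl r m y ≠ 0 := by
    have := hy.1
    unfold Gd at this
    rw [mem_setOf_eq] at this
    omega
  have hself : S.In (S.K.B r 0) m m := In.self_c (zero_B_c (S := S) r 0) hm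
  have h1 : S.De r m y ≤ ENNReal.ofReal (1 / 10) := good_of_pos_c h0 hself
  have h2 : fib (S.W r m) ((S.X r m).indicator 1) y + S.De r m y = 1 := by
    unfold De
    rw [← H395.fib_add (measurable_one.indicator (S.measurableSet_X r m))]
    have : (fun z => (S.X r m).indicator (1 : E → ℝ≥0∞) z + (S.X r m)ᶜ.indicator 1 z) =
        fun _ => 1 := by
      funext z
      by_cases hz : z ∈ S.X r m
      · rw [indicator_of_mem hz, indicator_of_notMem (show z ∉ (S.X r m)ᶜ from fun h => h hz)]; simp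
      · rw [indicator_of_notMem hz, indicator_of_mem (show z ∈ (S.X r m)ᶜ from hz)]; simp
    rw [this]
    unfold fib
    simp
  have h3 : ENNReal.ofReal (1 / 2) ≤ fib (S.W r m) ((S.X r m).indicator 1) y := by
    by_contra hcon
    rw [not_le] at hcon
    have h4 : fib (S.W r m) ((S.X r m).indicator 1) y + S.De r m y <
        ENNReal.ofReal (1 / 2) + ENNReal.ofReal (1 / 2) :=
      ENNReal.add_lt_add_of_lt_of_le (ne_top_of_le_ne_top ENNReal.ofReal_ne_top h1) hcon
        (h1.trans (ENNReal.ofReal_le_ofReal (by norm_num)))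
    rw [h2, ← ENNReal.ofReal_add (by norm_num) (by norm_num)] at h4
    norm_num at h4
  refine h3.trans ?_
  have hinv : InvS (S.W r m) (nkS S p m) :=
    Vale.Agent.P262.H395.CW.InvS.mono' (S.W_mono hpr m) (inv_nk hSI)
  unfold fib
  refine lintegral_mono fun z => ?_
  by_cases hz : mix (S.W r m) y z ∈ S.X r m
  · have h5 : mix (S.W r m) y z ∈ Ks S r p m := ⟨hz, (hinv.mix y z).mpr hy.2⟩
    rw [indicator_of_mem hz, indicator_of_mem h5]
  · rw [indicator_of_notMem hz]
    exact bot_le

/-! ### lattice runs of (STAR') -/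

lemma inv_one_add {W W' : Submodule ℝ E} (h : W ≤ W') {u : E} (hu : u ∈ W) (x : E) {w : E}
    (hw : w ∈ W'ᗮ) : ⟪u, x + w⟫ = ⟪u, x⟫ := by
  rw [inner_add_right, (Submodule.mem_orthogonal _ _).mp hw u (h hu), add_zero]

/-- **(STAR') integrated over the good labels of `rk p k`**: a family of payoffs `g a` (layers) in one
direction `e`, with steps `h a x` -/
theorem pay_star {m : ℕ} (hm : S.mv.tm m < S.T) (hrot : S.mv.IsRot m) (hth : S.th = 1 / 2)
    (hk : S.kq ≤ 1) (H : ThrC S) {p : List ℕ} (hjj : S.mv.jj m = 0 :: p) {k : ℕ}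
    (hN : NLk S p m k) {s : List ℕ} (hs : s <:+ rk p k) {e : E} (he : e ∈ S.W s m)
    (hep : e ∈ (S.W p m)ᗮ) (he1 : ‖e‖ = 1) {u : E} (hu1 : ‖u‖ ≤ 1) (hup : u ∈ (S.W p m)ᗮ)
    (hue : ⟪u, e⟫ = 0) (o : Bool) {L : ℕ → Set E} (hL : ∀ a, MeasurableSet (L a))
    (hLe : ∀ a, ∀ y ∈ L a, ∀ t : ℝ, y + t • e ∈ L a) {al be : ℝ} (hab : Pair al be)
    {h : ℕ → E → ℝ} (hh : ∀ a x, 0 < h a x) (hhe : ∀ a y (t : ℝ), h a (y + t • e) = h a y)
    (hhm : ∀ a, Measurable (h a))
    (hhi : ∀ a r, rk p k <:+ r → ∀ x, ∀ w ∈ (S.W r m)ᗮ, h a (x + w) = h a x)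
    {g : ℕ → List ℕ → E → ℝ≥0∞} (hgm : ∀ a r, Measurable (g a r))
    (hg : ∀ a r, rk p k <:+ r → ∀ y, g a r y ≤ S.gq m o s (L a) e (h a y) r y) (n : ℕ)
    {C1 : ℝ≥0∞} (hsum : ∀ x, ∑' a, ENNReal.ofReal (h a x) * S.mu s (L a) (rk p k) m x ^ be ≤
      C1 * ENNReal.ofReal (1 + |⟪u, x⟫|)) :
    Pay (S.W p m) (S.W (rk p k) m) S.qq (S.th / 8) (Ks S (rk p k) p m)
      ((nkS S p m).indicator fun x => (Gd S (rk p k) m).indicator
        (fun x => ∑' a, H711.tau (S.fam m) (g a) n (rk p k) x) x)
      (4 * (12 * ENNReal.ofReal S.kq) ^ n * C1 * ENNReal.ofReal cPay) := by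
  have hSI := rk_SI hm hrot hjj hN
  have hpr : p <:+ rk p k := (List.suffix_cons 0 p).trans (List.suffix_append _ _)
  set r := rk p k with hr
  set Cn : ℝ≥0∞ := 4 * (12 * ENNReal.ofReal S.kq) ^ n with hCn
  have e0 : ((nkS S p m).indicator fun x => (Gd S r m).indicator
        (fun x => ∑' a, H711.tau (S.fam m) (g a) n r x) x) =
      (Gs S r p m).indicator fun x => ∑' a, H711.tau (S.fam m) (g a) n r x := by
    funext x
    unfold Gs
    by_cases h1 : x ∈ nkS S p m
    · by_cases h2 : x ∈ Gd S r m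
      · rw [indicator_of_mem h1, indicator_of_mem h2, indicator_of_mem (show x ∈ _ ∩ _ from ⟨h2, h1⟩)]
      · rw [indicator_of_mem h1, indicator_of_notMem h2, indicator_of_notMem (fun h => h2 h.1)]
    · rw [indicator_of_notMem h1, indicator_of_notMem (fun h => h1 h.2)]
  rw [e0]
  have her : e ∈ S.W r m := S.W_mono hs m he
  have hmum : ∀ a, Measurable fun x => S.mu s (L a) r m x := fun a => mu_meas (hL a)
  -- freezing
  have hfr : ∀ a x, H711.tau (S.fam m) (g a) n r x ≤
      H711.tau (S.fam m) (S.gq m o s (L a) e (h a x)) n r x := by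
    intro a x
    have h1 := H837.tau_mono_of (F := S.fam m) (g := g a)
      (g' := fun r y => S.gq m o s (L a) e (h a y) r y) (Q := fun _ r' => r <:+ r')
      (fun _ r' x' hr' _ => hr'.trans (List.suffix_cons _ _)) (fun r' hr' y => hg a r' hr' y) n r
      (List.suffix_refl _) x
    have h2 := H837.tau_freeze (F := S.fam m) (u := h a)
      (G := fun t r y => S.gq m o s (L a) e t r y) (P := fun r' => r <:+ r')
      (fun r' x' hr' _ => hr'.trans (List.suffix_cons _ _))
      (fun r' hr' x' w hw => hhi a r' hr' x' w hw) n r (List.suffix_refl _) x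
    exact h1.trans (le_of_eq h2)
  have key := pay_line (V := S.W p m) (W := S.W r m) (q := S.qq) (a := S.th / 8)
    (K := Ks S r p m) (isCompact_Ks S r p m) (convex_Ks S r p m) (Ks_subset S r p m)
    (S.W_mono hpr m) H.qq (by have := S.hth; positivity) (by have := H.th; linarith) he1 her hep
    hu1 hup hue (measurableSet_Gs S r p m) (ordConnected_Gs S r p m e)
    (alive_Gs hm hpr (hSI.suffix hpr))
    (τ := fun a x => H711.tau (S.fam m) (g a) n r x)
    (B := fun a x => Cn * S.mu s (L a) r m x ^ be)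
    (Q := fun a x => ENNReal.ofReal (h a x) * (Cn * S.mu s (L a) r m x ^ be)) (h := h)
    (fun a => H711.measurable_tau (S.fam_str hm r) (hgm a) n r)
    (fun a => (hhm a).ennreal_ofReal.mul (((hmum a).pow_const _).const_mul _))
    (fun a x w hw => by
      have h1 : h a (x + w) = h a x := hhi a r (List.suffix_refl _) x w hw
      have h2 : S.mu s (L a) r m (x + w) = S.mu s (L a) r m x := mu_inv x w hw
      show ENNReal.ofReal (h a (x + w)) * (Cn * S.mu s (L a) r m (x + w) ^ be) = _
      rw [h1, h2])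
    hh hhe
    (fun a y t => by
      show Cn * S.mu s (L a) r m (y + t • e) ^ be = _
      rw [mu_layer_add hs he (hLe a) t y])
    (fun a y J hJ => by
      have h0 := (hJ 0 (Nat.zero_le _)).1
      have hJ' := (hJ J le_rfl).1
      rw [Nat.cast_zero, zero_mul, zero_smul, add_zero] at h0
      refine le_trans (Finset.sum_le_sum fun j _ => ?_)
        (star_good hm hrot hth hk o he (hL a) (hLe a) hab (hh a y).le n hs y J h0 hJ')
      have h1 := hfr a (y + ((j : ℝ) * h a y) • e)
      rw [hhe a y] at h1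
      exact h1)
    (fun a y => le_rfl)
    (C1 := Cn * C1)
    (fun x => by
      calc ∑' a, ENNReal.ofReal (h a x) * (Cn * S.mu s (L a) r m x ^ be) =
            ∑' a, Cn * (ENNReal.ofReal (h a x) * S.mu s (L a) r m x ^ be) := by
              congr 1; funext a; ring
        _ = Cn * ∑' a, ENNReal.ofReal (h a x) * S.mu s (L a) r m x ^ be := ENNReal.tsum_mul_left
        _ ≤ Cn * (C1 * ENNReal.ofReal (1 + |⟪u, x⟫|)) := mul_le_mul' le_rfl (hsum x)
        _ = _ := by ring)
  exact key

end Vale.Agent.P262.H439
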