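import Vale.Agent.P262.H439.PaySys2
import Vale.Agent.P262.H941.BePt
import Vale.Agent.P262.H606.FibT
import Vale.Agent.P262.H59.LayLab

/-!
# P262, block THR0, good part: `GoodK` on the system of milestone 2, and (THR0) with an absolute base
-/

set_option linter.all false

open MeasureTheory ProbabilityTheory Set
open scoped ENNReal NNReal RealInnerProductSpace
open Vale.Agent.P262.H118 (ON rotE rotL lyd nv sg la norm_nv nv_mem la_add measurableSet_la lyd_zero
  inner_mix_label mem_sg)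
open Vale.Agent.P262.H395 (fib mix Inv measurable_fib fib_mono inv_fib)
open Vale.Agent.P262.H395.CW (pl nk nk_nil nk_cons OMp OMc Lab SI)
open Vale.Agent.P262.H962 (capS measurable_capS)
open Vale.Agent.P262.H44 (InvS)
open Vale.Agent.P262.H439 (qq Pay)
open Vale.Agent.P262.H431

namespace Vale.Agent.P262.H439

open Vale.Agent.P262.M2
open Vale.Agent.P262.M2.Sys

variable {E : Type*} [NormedAddCommGroup E] [InnerProductSpace ℝ E] [FiniteDimensional ℝ E]
  [MeasurableSpace E] [BorelSpace E] {S : Sys E} {m : ℕ} {p : List ℕ} {k : ℕ} {θ : E}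
  {b : List ℕ → E} {q : List ℕ}

/-- the payoff is split into the three kinds of directions -/
lemma pay_le_split3 (hR : S.RotB m q θ b) (hrot : S.mv.IsRot m) (hq : S.mv.jj m = q) {r : List ℕ}
    (hr : q <:+ r) (x : E) :
    S.pay m r x ≤ ∑ o : Bool, ∑ ε ∈ sg, ((∑' a : ℕ, S.gTaL m q θ b o ε a r x) +
      (∑ i ∈ Finset.range (r.length - q.length), S.gO m b θ q o ε i r x) +
      S.gfb m θ b o ε r x) := by
  have h1 := hR.split hrot hq hr x
  have h2 : S.pay m r x ≤ _ / S.Dc r m x ^ S.th := ENNReal.div_le_div_right h1 _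
  refine h2.trans (le_of_eq ?_)
  unfold gTaL gO gfb
  simp only [div_eq_mul_inv]
  rw [Finset.sum_mul]
  refine Finset.sum_congr rfl fun o _ => ?_
  rw [Finset.sum_mul]
  refine Finset.sum_congr rfl fun ε _ => ?_
  rw [add_mul, add_mul, Finset.sum_mul, ENNReal.tsum_mul_right]

/-- the total payoff below `rk p k` -/
lemma tau_split3 (hm : S.mv.tm m < S.T) (hR : S.RotB m q θ b) (hrot : S.mv.IsRot m)
    (hq : S.mv.jj m = q) {r : List ℕ} (hr : q <:+ r) (n : ℕ) (x : E) :
    H711.tau (S.fam m) (S.pay m) n r x ≤ ∑ o : Bool, ∑ ε ∈ sg,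
      ((∑' a : ℕ, H711.tau (S.fam m) (S.gTaL m q θ b o ε a) n r x) +
      (∑ i ∈ Finset.range (r.length - q.length + n), H711.tau (S.fam m) (S.gO m b θ q o ε i) n r x) +
      H711.tau (S.fam m) (S.gfb m θ b o ε) n r x) := by
  set N := r.length - q.length + n with hNdef
  have hlen := hr.length_le
  have hstr := S.fam_str hm r
  have mT : ∀ (o : Bool) (ε : ℝ) (a : ℕ) (r : List ℕ), Measurable (S.gTaL m q θ b o ε a r) :=
    fun o ε a r => gTaL_meas o ε a r
  have mO : ∀ (o : Bool) (ε : ℝ) (i : ℕ) (r : List ℕ), Measurable (S.gO m b θ q o ε i r) :=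
    fun o ε i r => gO_meas m b θ q o ε i r
  have mF : ∀ (o : Bool) (ε : ℝ) (r : List ℕ), Measurable (S.gfb m θ b o ε r) :=
    fun o ε r => gfb_meas m θ b o ε r
  have h1 : H711.tau (S.fam m) (S.pay m) n r x ≤ H711.tau (S.fam m) (fun r y => ∑ o : Bool,
      ∑ ε ∈ sg, ((∑' a : ℕ, S.gTaL m q θ b o ε a r y) +
      (∑ i ∈ Finset.range N, S.gO m b θ q o ε i r y) + S.gfb m θ b o ε r y)) n r x := by
    refine H837.tau_mono_of (F := S.fam m) (Q := fun j r' => r <:+ r' ∧ r'.length + j = r.length + n)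
      (fun j r' x' h _ => ⟨h.1.trans (List.suffix_cons _ _), ?_⟩) (fun r' h y => ?_) n r
      ⟨List.suffix_refl _, rfl⟩ x
    · show (_ :: r').length + j = r.length + n
      rw [List.length_cons]
      have := h.2
      omega
    · have h2 := pay_le_split3 hR hrot hq (hr.trans h.1) y
      have h3 : r'.length - q.length = N := by
        have := h.2
        omega
      rw [h3] at h2
      exact h2
  refine h1.trans (le_of_eq ?_)
  have mTs : ∀ (o : Bool) (ε : ℝ) (r : List ℕ), Measurable fun y =>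
      ∑' a : ℕ, S.gTaL m q θ b o ε a r y := fun o ε r => Measurable.ennreal_tsum fun a => mT o ε a r
  have mOs : ∀ (o : Bool) (ε : ℝ) (r : List ℕ), Measurable fun y =>
      ∑ i ∈ Finset.range N, S.gO m b θ q o ε i r y := fun o ε r =>
    Finset.measurable_fun_sum _ fun i _ => mO o ε i r
  have mTO : ∀ (o : Bool) (ε : ℝ) (r : List ℕ), Measurable fun y =>
      (∑' a : ℕ, S.gTaL m q θ b o ε a r y) + ∑ i ∈ Finset.range N, S.gO m b θ q o ε i r y :=
    fun o ε r => (mTs o ε r).add (mOs o ε r)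
  have mA : ∀ (o : Bool) (ε : ℝ) (r : List ℕ), Measurable fun y =>
      (∑' a : ℕ, S.gTaL m q θ b o ε a r y) + (∑ i ∈ Finset.range N, S.gO m b θ q o ε i r y) +
        S.gfb m θ b o ε r y :=
    fun o ε r => (mTO o ε r).add (mF o ε r)
  rw [H837.tau_finset hstr Finset.univ (g := fun (o : Bool) r y => ∑ ε ∈ sg,
    ((∑' a : ℕ, S.gTaL m q θ b o ε a r y) + (∑ i ∈ Finset.range N, S.gO m b θ q o ε i r y) +
      S.gfb m θ b o ε r y)) (fun o r => Finset.measurable_fun_sum _ fun ε _ => mA o ε r)]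
  refine Finset.sum_congr rfl fun o _ => ?_
  rw [H837.tau_finset hstr sg (g := fun (ε : ℝ) r y =>
    ((∑' a : ℕ, S.gTaL m q θ b o ε a r y) + (∑ i ∈ Finset.range N, S.gO m b θ q o ε i r y) +
      S.gfb m θ b o ε r y)) (fun ε r => mA o ε r)]
  refine Finset.sum_congr rfl fun ε _ => ?_
  rw [H837.tau_add hstr (g := fun r y => (∑' a : ℕ, S.gTaL m q θ b o ε a r y) +
      ∑ i ∈ Finset.range N, S.gO m b θ q o ε i r y) (g' := fun r y => S.gfb m θ b o ε r y)
      (fun r => mTO o ε r),
    H837.tau_add hstr (g := fun r y => (∑' a : ℕ, S.gTaL m q θ b o ε a r y))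
      (g' := fun r y => ∑ i ∈ Finset.range N, S.gO m b θ q o ε i r y) (fun r => mTs o ε r),
    H837.tau_tsum hstr (g := fun a r y => S.gTaL m q θ b o ε a r y) (fun a r => mT o ε a r),
    H837.tau_finset hstr (Finset.range N) (g := fun i r y => S.gO m b θ q o ε i r y)
      (fun i r => mO o ε i r)]

lemma Psi_half_le (D : ℝ≥0∞) : H837.Psi (1 / 2) D ≤ 22 := by
  rw [H606.Psi_min_one]
  have h1 : H837.Psi (1 / 2) (min D 1) ≤ H837.Psi (1 / 2) 1 :=
    H837.Psi_mono (by norm_num) (min_le_right _ _)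
  have h2 := H606.Psi_thr (c := 0) (D := 1) (by
    rw [← ENNReal.ofReal_one]
    apply ENNReal.ofReal_le_ofReal
    norm_num)
  refine h1.trans (h2.trans ?_)
  simp

/-- **the fibre direction** below any label -/
lemma fib_pt (hm : S.mv.tm m < S.T) (hrot : S.mv.IsRot m) (hth : S.th = 1 / 2) (hk : S.kq ≤ 1)
    (hR : S.RotB m q θ b) {r : List ℕ} (hr : q <:+ r) (o : Bool) {ε : ℝ} (hε : ε ∈ sg) (n : ℕ)
    (x : E) :
    H711.tau (S.fam m) (S.gfb m θ b o ε) n r x ≤
      ENNReal.ofReal (440 * S.mv.ph m) * (12 * ENNReal.ofReal S.kq) ^ n *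
        ENNReal.ofReal (1 + |⟪θ, x⟫|) := by
  have h := chainT_sys hm hth hk (q := q) (u := fun y => ENNReal.ofReal (1 + |⟪θ, y⟫|))
    (fun r' hr' => by
      intro y w hw
      have : ⟪θ, y + w⟫ = ⟪θ, y⟫ := inv_one_add le_rfl (S.W_mono hr' m hR.mem) y hw
      show ENNReal.ofReal (1 + |⟪θ, y + w⟫|) = _
      rw [this]) (L := r.length + n) (g := S.gfb m θ b o ε)
    (C := ENNReal.ofReal (20 * S.mv.ph m))
    (fun r' y hr' _ => gfb_le hR hm hrot hth hr' o hε y) n r x hr rfl
  refine h.trans ?_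
  have hph := S.mv.ph_nonneg m
  have h1 : ENNReal.ofReal (256 * S.kap ^ (1 / 2 : ℝ)) ≤ 12 * ENNReal.ofReal S.kq := by
    calc ENNReal.ofReal (256 * S.kap ^ (1 / 2 : ℝ)) = 1 * ENNReal.ofReal S.kq := by
          rw [one_mul]; rfl
      _ ≤ _ := mul_le_mul' (by norm_num) le_rfl
  calc ENNReal.ofReal (20 * S.mv.ph m) * ENNReal.ofReal (256 * S.kap ^ (1 / 2 : ℝ)) ^ n *
        (ENNReal.ofReal (1 + |⟪θ, x⟫|) * H837.Psi (1 / 2) (S.DD r m x))
      ≤ ENNReal.ofReal (20 * S.mv.ph m) * (12 * ENNReal.ofReal S.kq) ^ n *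
        (ENNReal.ofReal (1 + |⟪θ, x⟫|) * 22) := by
        gcongr
        exact Psi_half_le _
    _ = _ := by
        have e : ENNReal.ofReal (440 * S.mv.ph m) = ENNReal.ofReal (20 * S.mv.ph m) * 22 := by
          rw [show (440 : ℝ) * S.mv.ph m = (20 * S.mv.ph m) * 22 by ring,
            ENNReal.ofReal_mul (by positivity)]
          simp only [ENNReal.ofReal_ofNat]
        rw [e]
        ring

/-- deep own directions below a good label -/
lemma deep_pt (hm : S.mv.tm m < S.T) (hrot : S.mv.IsRot m) (hth : S.th = 1 / 2) (hk : S.kq ≤ 1)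
    (hq : S.mv.jj m = q) (hR : S.RotB m q θ b) {r : List ℕ} (hr : q <:+ r) (o : Bool) {ε : ℝ}
    (hε : ε ∈ sg) (n : ℕ) {i : ℕ} (h1 : r.length - q.length ≤ i)
    (h2 : i < r.length - q.length + n) {x : E} (hx : 1 ≤ S.kl r m x) :
    H711.tau (S.fam m) (S.gO m b θ q o ε i) n r x ≤
      ENNReal.ofReal (640 * S.mv.ph m) * 2 ^ i * (12 * ENNReal.ofReal S.kq) ^ n *
        ENNReal.ofReal (1 + |⟪θ, x⟫|) := by
  refine (own_pt hm hrot hth hk hq hR o hε hr h1 h2 x).trans ?_
  have h3 : S.Dk (S.kl r m x) r m x ≤ 1 := by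
    refine (S.Dk_lt_thr hm hx).le.trans ?_
    rw [S.hthr, ← ENNReal.ofReal_one]
    apply ENNReal.ofReal_le_ofReal
    have : Real.exp (1 - (4 : ℝ) ^ (S.kl r m x - 1)) ≤ 1 := by
      apply Real.exp_le_one_iff.2
      have : (1 : ℝ) ≤ 4 ^ (S.kl r m x - 1) := one_le_pow₀ (by norm_num)
      linarith
    linarith
  have h4 : S.Dk (S.kl r m x) r m x ^ (1 / 2 : ℝ) ≤ 1 := ENNReal.rpow_le_one h3 (by norm_num)
  rw [kq12]
  calc _ ≤ ENNReal.ofReal (640 * S.mv.ph m) * 2 ^ i * (12 * ENNReal.ofReal S.kq) ^ n *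
        (ENNReal.ofReal (1 + |⟪θ, x⟫|) * 1) := by gcongr
    _ = _ := by rw [mul_one]

/-- everything except `θ` and the own directions above: pointwise payoff of a good label -/
lemma rest_pt (hm : S.mv.tm m < S.T) (hrot : S.mv.IsRot m) (hth : S.th = 1 / 2) (hk : S.kq ≤ 1)
    (hq : S.mv.jj m = q) (hR : S.RotB m q θ b) {r : List ℕ} (hr : q <:+ r) (o : Bool) {ε : ℝ}
    (hε : ε ∈ sg) (n : ℕ) {x : E} (hx : 1 ≤ S.kl r m x) :
    (∑ i ∈ Finset.Ico (r.length - q.length) (r.length - q.length + n),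
      H711.tau (S.fam m) (S.gO m b θ q o ε i) n r x) +
      H711.tau (S.fam m) (S.gfb m θ b o ε) n r x ≤
      (ENNReal.ofReal (1080 * S.mv.ph m) * 2 ^ (r.length - q.length + n) *
        (12 * ENNReal.ofReal S.kq) ^ n) * ENNReal.ofReal (1 + |⟪θ, x⟫|) := by
  have hph := S.mv.ph_nonneg m
  set N := r.length - q.length with hN
  set K := (12 * ENNReal.ofReal S.kq) ^ n with hK
  have h1 : (∑ i ∈ Finset.Ico N (N + n), H711.tau (S.fam m) (S.gO m b θ q o ε i) n r x) ≤
      ENNReal.ofReal (640 * S.mv.ph m) * 2 ^ (N + n) * K * ENNReal.ofReal (1 + |⟪θ, x⟫|) := by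
    calc _ ≤ ∑ i ∈ Finset.Ico N (N + n), ENNReal.ofReal (640 * S.mv.ph m) * 2 ^ i * K *
          ENNReal.ofReal (1 + |⟪θ, x⟫|) := Finset.sum_le_sum fun i hi =>
            deep_pt hm hrot hth hk hq hR hr o hε n (Finset.mem_Ico.mp hi).1 (Finset.mem_Ico.mp hi).2 hx
      _ = ENNReal.ofReal (640 * S.mv.ph m) * (∑ i ∈ Finset.Ico N (N + n), 2 ^ i) * K *
          ENNReal.ofReal (1 + |⟪θ, x⟫|) := by
            rw [Finset.mul_sum, Finset.sum_mul, Finset.sum_mul]
      _ ≤ _ := by
            gcongr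
            refine le_trans (Finset.sum_le_sum_of_subset (t := Finset.range (N + n)) fun i hi => ?_)
              (H941.sum_two_pow_le (N + n))
            rw [Finset.mem_range]
            exact (Finset.mem_Ico.mp hi).2
  have h2 := fib_pt hm hrot hth hk hR hr o hε n x
  have h3 : (1 : ℝ≥0∞) ≤ 2 ^ (N + n) := one_le_pow₀ (by norm_num)
  calc _ ≤ ENNReal.ofReal (640 * S.mv.ph m) * 2 ^ (N + n) * K * ENNReal.ofReal (1 + |⟪θ, x⟫|) +
        ENNReal.ofReal (440 * S.mv.ph m) * K * ENNReal.ofReal (1 + |⟪θ, x⟫|) := add_le_add h1 h2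
    _ ≤ ENNReal.ofReal (640 * S.mv.ph m) * 2 ^ (N + n) * K * ENNReal.ofReal (1 + |⟪θ, x⟫|) +
        (ENNReal.ofReal (440 * S.mv.ph m) * 2 ^ (N + n)) * K * ENNReal.ofReal (1 + |⟪θ, x⟫|) := by
        gcongr
        calc ENNReal.ofReal (440 * S.mv.ph m) = ENNReal.ofReal (440 * S.mv.ph m) * 1 :=
              (mul_one _).symm
          _ ≤ _ := mul_le_mul' le_rfl h3
    _ = _ := by
        have e : ENNReal.ofReal (1080 * S.mv.ph m) = ENNReal.ofReal (640 * S.mv.ph m) +
            ENNReal.ofReal (440 * S.mv.ph m) := by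
          rw [← ENNReal.ofReal_add (by positivity) (by positivity)]
          congr 1
          ring
        rw [e]
        ring

section total

variable (hm : S.mv.tm m < S.T) (hrot : S.mv.IsRot m) (hth : S.th = 1 / 2) (hk : S.kq ≤ 1)
  (H : ThrC S) (hjj : S.mv.jj m = 0 :: p) (hN : NLk S p m k) (hR : S.RotB m (0 :: p) θ b)
  (hph : 0 < S.mv.ph m)

include hm hrot hth hk H hjj hN hR hph

/-- one body, one sign -/
lemma pay_one (o : Bool) {ε : ℝ} (hε : ε ∈ sg) (n : ℕ) :
    Pay (S.W p m) (S.W (rk p k) m) S.qq (S.th / 8) (Ks S (rk p k) p m)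
      ((nkS S p m).indicator fun x => (Gd S (rk p k) m).indicator
        (fun x => (∑' a : ℕ, H711.tau (S.fam m) (S.gTaL m (0 :: p) θ b o ε a) n (rk p k) x) +
          (∑ i ∈ Finset.range (k + n), H711.tau (S.fam m) (S.gO m b θ (0 :: p) o ε i) n (rk p k) x) +
          H711.tau (S.fam m) (S.gfb m θ b o ε) n (rk p k) x) x)
      (ENNReal.ofReal (6000 * cPay * S.mv.ph m) * 2 ^ (k + n) *
        (12 * ENNReal.ofReal S.kq) ^ n) := by
  have hqr : (0 :: p) <:+ rk p k := List.suffix_append _ _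
  have hpr : p <:+ rk p k := (List.suffix_cons 0 p).trans hqr
  have hSI := rk_SI hm hrot hjj hN
  have hlen : (rk p k).length - (0 :: p).length = k := by
    rw [length_rk, List.length_cons]; omega
  set r := rk p k with hr
  set K := (12 * ENNReal.ofReal S.kq) ^ n with hK
  have hc : 0 ≤ cPay := by unfold cPay; have := cL1_pos; positivity
  have hstr := S.fam_str hm r
  have hnkm : MeasurableSet (nkS S p m) := (isClosed_nkS S p m).measurableSet
  have hGdm : MeasurableSet (Gd S r m) := measurableSet_Gd r m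
  -- the three parts
  have p1 := pay_theta hm hrot hth hk H hjj hN hR hph
    (fun x => H59.lay_lab (hR.norm_b hqr).le (S.W r m) x) o hε n
  have p2 : ∀ i ∈ Finset.range k, _ := fun i hi =>
    pay_own hm hrot hth hk H hjj hN hR hph o hε n (Finset.mem_range.mp hi)
  have p3 := pay_alive (V := S.W p m) (W := S.W r m) (q := S.qq) (a := S.th / 8)
    (K := Ks S r p m) (isCompact_Ks S r p m) (convex_Ks S r p m) (Ks_subset S r p m)
    (S.W_mono hpr m) H.qq (by have := S.hth; positivity) (by have := H.th; linarith)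
    (b := θ) (hR.on (0 :: p) (List.suffix_refl _)).hp.le hR.perp (S.W_mono hqr m hR.mem)
    (alive_Gs hm hpr (hSI.suffix hpr))
    (f := fun x => (∑ i ∈ Finset.Ico k (k + n),
      H711.tau (S.fam m) (S.gO m b θ (0 :: p) o ε i) n r x) +
      H711.tau (S.fam m) (S.gfb m θ b o ε) n r x)
    (C1 := ENNReal.ofReal (1080 * S.mv.ph m) * 2 ^ (k + n) * K)
    (fun x hx => by
      have h := rest_pt hm hrot hth hk hjj hR hqr o hε n (x := x) hx.1
      rw [hlen] at h
      exact h)
  have mT : Measurable fun x => ∑' a : ℕ, H711.tau (S.fam m) (S.gTaL m (0 :: p) θ b o ε a) n r x :=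
    Measurable.ennreal_tsum fun a => H711.measurable_tau hstr (fun r => gTaL_meas o ε a r) n r
  have mO : ∀ i, Measurable fun x => H711.tau (S.fam m) (S.gO m b θ (0 :: p) o ε i) n r x :=
    fun i => H711.measurable_tau hstr (fun r => gO_meas m b θ _ o ε i r) n r
  have q2 := Pay.sum (Finset.range k) (fun i _ => ((mO i).indicator hGdm).indicator hnkm) p2
  have q12 := Pay.add ((mT.indicator hGdm).indicator hnkm) p1 q2
  have m12 : Measurable fun x => ((nkS S p m).indicator (fun x => (Gd S r m).indicator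
      (fun x => ∑' a : ℕ, H711.tau (S.fam m) (S.gTaL m (0 :: p) θ b o ε a) n r x) x) x) +
      ∑ i ∈ Finset.range k, ((nkS S p m).indicator (fun x => (Gd S r m).indicator
        (fun x => H711.tau (S.fam m) (S.gO m b θ (0 :: p) o ε i) n r x) x) x) :=
    ((mT.indicator hGdm).indicator hnkm).add
      (Finset.measurable_fun_sum _ fun i _ => ((mO i).indicator hGdm).indicator hnkm)
  have q123 := Pay.add m12 q12 p3
  refine q123.mono (fun x => ?_) ?_
  · by_cases h3 : x ∈ nkS S p m
    · by_cases h4 : x ∈ Gd S r m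
      · have h5 : x ∈ Gs S r p m := ⟨h4, h3⟩
        simp only [indicator_of_mem h3, indicator_of_mem h4, indicator_of_mem h5]
        refine le_of_eq ?_
        rw [← Finset.sum_range_add_sum_Ico _ (Nat.le_add_right k n)]
        ring
      · simp only [indicator_of_mem h3, indicator_of_notMem h4]
        exact bot_le
    · simp only [indicator_of_notMem h3]
      exact bot_le
  · -- the constants
    have e0 : (2 : ℝ≥0∞) = ENNReal.ofReal 2 := by simp
    have hO : ∑ i ∈ Finset.range k, 4 * K * ENNReal.ofReal (2 ^ (i + 3) * S.mv.ph m) *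
        ENNReal.ofReal cPay ≤ ENNReal.ofReal (32 * cPay * S.mv.ph m) * 2 ^ (k + n) * K := by
      have e1 : ∀ i, 4 * K * ENNReal.ofReal (2 ^ (i + 3) * S.mv.ph m) * ENNReal.ofReal cPay =
          (ENNReal.ofReal (32 * cPay * S.mv.ph m) * K) * 2 ^ i := by
        intro i
        have e2 : ENNReal.ofReal (2 ^ (i + 3) * S.mv.ph m) =
            8 * ENNReal.ofReal (S.mv.ph m) * 2 ^ i := by
          rw [pow_add, mul_assoc, ENNReal.ofReal_mul (by positivity),
            ENNReal.ofReal_mul (by positivity), ENNReal.ofReal_pow (by norm_num)]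
          norm_num
          ring
        have e3 : ENNReal.ofReal (32 * cPay * S.mv.ph m) =
            32 * ENNReal.ofReal cPay * ENNReal.ofReal (S.mv.ph m) := by
          rw [ENNReal.ofReal_mul (by positivity), ENNReal.ofReal_mul (by positivity)]
          norm_num
        rw [e2, e3]
        ring
      simp only [e1]
      rw [← Finset.mul_sum]
      calc (ENNReal.ofReal (32 * cPay * S.mv.ph m) * K) * ∑ i ∈ Finset.range k, (2 : ℝ≥0∞) ^ i
          ≤ (ENNReal.ofReal (32 * cPay * S.mv.ph m) * K) * 2 ^ (k + n) := by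
            gcongr
            exact (H941.sum_two_pow_le k).trans (pow_le_pow_right₀ (by norm_num) (by omega))
        _ = _ := by ring
    have hT : 4 * K * ENNReal.ofReal (1200 * S.mv.ph m) * ENNReal.ofReal cPay ≤
        ENNReal.ofReal (4800 * cPay * S.mv.ph m) * 2 ^ (k + n) * K := by
      have e3 : ENNReal.ofReal (4800 * cPay * S.mv.ph m) =
          4 * ENNReal.ofReal (1200 * S.mv.ph m) * ENNReal.ofReal cPay := by
        rw [show 4800 * cPay * S.mv.ph m = 4 * (1200 * S.mv.ph m) * cPay by ring,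
          ENNReal.ofReal_mul (by positivity), ENNReal.ofReal_mul (by positivity)]
        norm_num
      have h3 : (1 : ℝ≥0∞) ≤ 2 ^ (k + n) := one_le_pow₀ (by norm_num)
      rw [e3]
      calc 4 * K * ENNReal.ofReal (1200 * S.mv.ph m) * ENNReal.ofReal cPay
          = (4 * ENNReal.ofReal (1200 * S.mv.ph m) * ENNReal.ofReal cPay) * 1 * K := by ring
        _ ≤ _ := by gcongr
    have hA : ENNReal.ofReal (1080 * S.mv.ph m) * 2 ^ (k + n) * K * ENNReal.ofReal cPay =
        ENNReal.ofReal (1080 * cPay * S.mv.ph m) * 2 ^ (k + n) * K := by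
      have e3 : ENNReal.ofReal (1080 * cPay * S.mv.ph m) =
          ENNReal.ofReal (1080 * S.mv.ph m) * ENNReal.ofReal cPay := by
        rw [← ENNReal.ofReal_mul (by positivity)]
        congr 1
        ring
      rw [e3]
      ring
    refine (add_le_add (add_le_add hT hO) hA.le).trans ?_
    rw [← add_mul, ← add_mul, ← add_mul, ← add_mul, ← ENNReal.ofReal_add (by positivity)
      (by positivity), ← ENNReal.ofReal_add (by positivity) (by positivity)]
    gcongr
    nlinarith [mul_nonneg hc hph.le]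

end total

end Vale.Agent.P262.H439
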