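import Vale.Agent.P262.H439.PaySys3

/-!
# P262, block THR0: `GoodK` on the system of milestone 2, and (THR0) with an absolute base
-/

set_option linter.all false

open MeasureTheory ProbabilityTheory Set
open scoped ENNReal NNReal RealInnerProductSpace
open Vale.Agent.P262.H118 (ON rotE rotL lyd nv sg la norm_nv nv_mem la_add measurableSet_la lyd_zero
  inner_mix_label mem_sg)
open Vale.Agent.P262.H395 (fib mix Inv measurable_fib fib_mono inv_fib)
open Vale.Agent.P262.H395.CW (pl nk nk_nil nk_cons OMp OMc Lab SI)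
open Vale.Agent.P262.H962 (capS measurable_capS)
open Vale.Agent.P262.H44 (InvS)
open Vale.Agent.P262.H439 (qq Pay)
open Vale.Agent.P262.H431

namespace Vale.Agent.P262.H439

open Vale.Agent.P262.M2
open Vale.Agent.P262.M2.Sys

variable {E : Type*} [NormedAddCommGroup E] [InnerProductSpace ℝ E] [FiniteDimensional ℝ E]
  [MeasurableSpace E] [BorelSpace E] {S : Sys E} {m : ℕ} {p : List ℕ} {k : ℕ} {θ : E}
  {b : List ℕ → E} {q : List ℕ}

section total

variable (hm : S.mv.tm m < S.T) (hrot : S.mv.IsRot m) (hth : S.th = 1 / 2) (hk : S.kq ≤ 1)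
  (H : ThrC S) (hjj : S.mv.jj m = 0 :: p) (hN : NLk S p m k) (hR : S.RotB m (0 :: p) θ b)
  (hph : 0 < S.mv.ph m)

include hm hrot hth hk H hjj hN hR hph

/-- **the total payoff below the good labels of `rk p k`** -/
lemma pay_tot (n : ℕ) :
    Pay (S.W p m) (S.W (rk p k) m) S.qq (S.th / 8) (Ks S (rk p k) p m)
      ((nkS S p m).indicator fun x => (Gd S (rk p k) m).indicator
        (fun x => H711.tau (S.fam m) (S.pay m) n (rk p k) x) x)
      (ENNReal.ofReal (24000 * cPay * S.mv.ph m) * 2 ^ (k + n) *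
        (12 * ENNReal.ofReal S.kq) ^ n) := by
  have hqr : (0 :: p) <:+ rk p k := List.suffix_append _ _
  have hlen : (rk p k).length - (0 :: p).length = k := by
    rw [length_rk, List.length_cons]; omega
  set r := rk p k with hr
  set K := (12 * ENNReal.ofReal S.kq) ^ n with hK
  have hc : 0 ≤ cPay := by unfold cPay; have := cL1_pos; positivity
  have hstr := S.fam_str hm r
  have hnkm : MeasurableSet (nkS S p m) := (isClosed_nkS S p m).measurableSet
  have hGdm : MeasurableSet (Gd S r m) := measurableSet_Gd r m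
  have mT : ∀ (o : Bool) (ε : ℝ), Measurable fun x =>
      ∑' a : ℕ, H711.tau (S.fam m) (S.gTaL m (0 :: p) θ b o ε a) n r x := fun o ε =>
    Measurable.ennreal_tsum fun a => H711.measurable_tau hstr (fun r => gTaL_meas o ε a r) n r
  have mO : ∀ (o : Bool) (ε : ℝ) i, Measurable fun x =>
      H711.tau (S.fam m) (S.gO m b θ (0 :: p) o ε i) n r x :=
    fun o ε i => H711.measurable_tau hstr (fun r => gO_meas m b θ _ o ε i r) n r
  have mF : ∀ (o : Bool) (ε : ℝ), Measurable fun x =>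
      H711.tau (S.fam m) (S.gfb m θ b o ε) n r x := fun o ε =>
    H711.measurable_tau hstr (fun r => gfb_meas m θ b o ε r) n r
  have mA : ∀ (o : Bool) (ε : ℝ), Measurable fun x =>
      (nkS S p m).indicator (fun x => (Gd S r m).indicator
        (fun x => (∑' a : ℕ, H711.tau (S.fam m) (S.gTaL m (0 :: p) θ b o ε a) n r x) +
          (∑ i ∈ Finset.range (k + n), H711.tau (S.fam m) (S.gO m b θ (0 :: p) o ε i) n r x) +
          H711.tau (S.fam m) (S.gfb m θ b o ε) n r x) x) x := fun o ε =>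
    (((((mT o ε).add (Finset.measurable_fun_sum _ fun i _ => mO o ε i)).add
      (mF o ε)).indicator hGdm).indicator hnkm)
  have q1 : ∀ o : Bool, _ := fun o => Pay.sum sg (fun ε _ => mA o ε) fun ε hε =>
    pay_one hm hrot hth hk H hjj hN hR hph o hε n
  have q2 := Pay.sum (Finset.univ : Finset Bool)
    (fun o _ => Finset.measurable_fun_sum sg fun ε _ => mA o ε) (fun o _ => q1 o)
  refine q2.mono (fun x => ?_) ?_
  · by_cases h3 : x ∈ nkS S p m
    · by_cases h4 : x ∈ Gd S r m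
      · simp only [indicator_of_mem h3, indicator_of_mem h4]
        have h5 := tau_split3 hm hR hrot hjj hqr n x
        rw [hlen] at h5
        exact h5
      · simp only [indicator_of_mem h3, indicator_of_notMem h4]
        exact bot_le
    · simp only [indicator_of_notMem h3]
      exact bot_le
  · have hcard : sg.card ≤ 2 := by unfold sg; exact Finset.card_le_two
    rw [Finset.sum_const, Finset.sum_const, Finset.card_univ, Fintype.card_bool, nsmul_eq_mul,
      nsmul_eq_mul]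
    have e3 : ENNReal.ofReal (24000 * cPay * S.mv.ph m) =
        2 * (2 * ENNReal.ofReal (6000 * cPay * S.mv.ph m)) := by
      rw [show 24000 * cPay * S.mv.ph m = 2 * (2 * (6000 * cPay * S.mv.ph m)) by ring,
        ENNReal.ofReal_mul (by norm_num), ENNReal.ofReal_mul (by norm_num)]
      norm_num
    rw [e3]
    have h2 : ((sg.card : ℕ) : ℝ≥0∞) ≤ 2 := by exact_mod_cast hcard
    calc ((2 : ℕ) : ℝ≥0∞) * ((sg.card : ℝ≥0∞) *
          (ENNReal.ofReal (6000 * cPay * S.mv.ph m) * 2 ^ (k + n) * K))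
        ≤ 2 * (2 * (ENNReal.ofReal (6000 * cPay * S.mv.ph m) * 2 ^ (k + n) * K)) := by
          gcongr
          norm_num
      _ = _ := by ring

end total

/-- the product of the factors -/
lemma base_le {kap : ℝ} (hk : 0 < kap) (hk1 : kap ≤ 1) (a k n : ℕ) :
    2 ^ (k + n) * (3072 * kap ^ (1 / 2 : ℝ)) ^ n * (kap ^ (1 / 2 : ℝ)) ^ (a + k) ≤
      (6144 * kap ^ (1 / 2 : ℝ)) ^ (a + k + n) := by
  set s := kap ^ (1 / 2 : ℝ) with hs
  have hs0 : 0 < s := Real.rpow_pos_of_pos hk _
  have h1 : (2 : ℝ) ^ (k + n) ≤ 2 ^ (a + k + n) := pow_le_pow_right₀ (by norm_num) (by omega)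
  have h2 : (3072 : ℝ) ^ n ≤ 3072 ^ (a + k + n) := pow_le_pow_right₀ (by norm_num) (by omega)
  calc 2 ^ (k + n) * (3072 * s) ^ n * s ^ (a + k) = 2 ^ (k + n) * 3072 ^ n * s ^ (a + k + n) := by
        rw [mul_pow, pow_add s (a + k) n]; ring
    _ ≤ 2 ^ (a + k + n) * 3072 ^ (a + k + n) * s ^ (a + k + n) := by gcongr
    _ = _ := by
        rw [← mul_pow, ← mul_pow]
        norm_num

/-- a rotation by the angle `0` pays nothing -/
lemma tau_zero_ph (hm : S.mv.tm m < S.T) (hrot : S.mv.IsRot m) (hth : S.th = 1 / 2)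
    (hq : S.mv.jj m = q) (hR : S.RotB m q θ b) (hph : S.mv.ph m = 0) {r : List ℕ} (hr : q <:+ r)
    (n : ℕ) (x : E) : H711.tau (S.fam m) (S.pay m) n r x = 0 := by
  have hX : ∀ r', q <:+ r' → S.X r' (m + 1) = S.X r' m := by
    intro r' hr'
    rw [hR.X_succ r' hr']
    ext y
    show rotE (hR.on r' hr') (S.mv.ph m) y ∈ S.X r' m ↔ _
    rw [hph]
    have : rotE (hR.on r' hr') 0 y = y := H118.ON.rot_zero y
    rw [this]
  have hp : ∀ r', q <:+ r' → ∀ y, S.pay m r' y = 0 := by
    intro r' hr' y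
    have h1 : S.Dl r' m y = 0 := by
      rw [S.Dl_active (Or.inr hrot) y, hX r' hr', symmDiff_self]
      have : ((⊥ : Set E).indicator (1 : E → ℝ≥0∞)) = fun _ => 0 := by
        funext z
        exact indicator_of_notMem (Set.notMem_empty z) _
      rw [this]
      unfold fib
      simp
    unfold pay
    rw [h1, ENNReal.zero_div]
  refine le_antisymm ?_ bot_le
  refine le_trans (H837.tau_mono_of (F := S.fam m) (g' := fun _ _ => 0) (Q := fun _ r' => q <:+ r')
    (fun _ r' x' h _ => h.trans (List.suffix_cons _ _))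
    (fun r' h y => (hp r' h y).le) n r hr x) (le_of_eq ?_)
  exact H941.tau_of_zero (fun _ _ => rfl) n r x

/-- **the good part at `rk p k`** with an absolute base -/
theorem goodK_B (H : ThrC S) (hth : S.th = 1 / 2) (hk : S.kq ≤ 1) {m : ℕ}
    (hroot : ∀ x, S.kl [] m x ≠ 0) (hm : S.mv.tm m < S.T) (hrot : S.mv.IsRot m) {p : List ℕ}
    (hjj : S.mv.jj m = 0 :: p) {k : ℕ} (n : ℕ) (hN : NLk S p m k) :
    GoodK S (fun c r => S.cw (c :: r) m) (48000 * cPay) (6144 * S.kap ^ (1 / 2 : ℝ)) m p k n := by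
  obtain ⟨θ, b, hR⟩ := rot_coh hrot
  rw [hjj] at hR
  have hqr : (0 :: p) <:+ rk p k := List.suffix_append _ _
  have hpr : p <:+ rk p k := (List.suffix_cons 0 p).trans hqr
  have hSI : SI (fun r => S.W r m) (List.replicate k 0 ++ (0 :: p)) := rk_SI hm hrot hjj hN
  have hc : 0 ≤ cPay := by unfold cPay; have := cL1_pos; positivity
  have hφ := S.mv.ph_nonneg m
  unfold GoodK
  have etau : ∀ x, S.tauT (fun c r => S.cw (c :: r) m) (S.pay m) m n (rk p k) x =
      H711.tau (S.fam m) (S.pay m) n (rk p k) x := fun x => rfl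
  simp only [etau]
  rcases hφ.eq_or_lt with h0 | hph
  · have h1 : ∀ x, (S.Rg p 0 m).indicator (1 : E → ℝ≥0∞) x * ((Gd S (rk p k) m).indicator 1 x *
        (S.As S.th (rk p k) m x * H711.tau (S.fam m) (S.pay m) n (rk p k) x)) = 0 := by
      intro x
      rw [tau_zero_ph hm hrot hth hjj hR h0.symm hqr n x, mul_zero, mul_zero, mul_zero]
    simp only [h1, lintegral_zero]
    exact bot_le
  have hP := pay_tot hm hrot hth hk H hjj hN hR hph n
  set K := S.X (rk p k) m with hKdef
  have hR0 : 0 ≤ S.R := by linarith [S.hR]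
  have hfib : ∀ s, s <:+ p → ∀ x, fib (S.W s m) (Kᶜ.indicator 1) x = S.De s m x := fun s hs x =>
    S.mv.fib_Bd_compl (fun t => M1.measurableSet_body S.v S.R t) m (hs.trans hpr) x
  have hqK : ∀ x, qq (S.W p m) K x = S.q p m x := fun x =>
    S.mv.fib_Bd (fun t => M1.measurableSet_body S.v S.R t) m hpr x
  have hself : ∀ s, S.In (S.K.B s 0) m m := fun s => In.self_c (zero_B_c (S := S) s 0) hm
  have hgood : ∀ s, s <:+ p → ∀ x, S.kl s m x ≠ 0 →
      S.De s m x ≤ ENNReal.ofReal (1 / 8) := fun s _ x h0 =>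
    (good_of_pos_c h0 (hself s)).trans (ENNReal.ofReal_le_ofReal (by norm_num))
  have hfm : Measurable fun x => (Gd S (rk p k) m).indicator
      (fun x => H711.tau (S.fam m) (S.pay m) n (rk p k) x) x :=
    (H711.measurable_tau (S.fam_str hm (rk p k)) (fun r => pay_meas m r) n (rk p k)).indicator
      (measurableSet_Gd _ _)
  have key := pay_int (W := fun r => S.W r m) (cls := fun r => S.kl r m)
      (om := fun r => S.om r m) (p := p) (A0 := S.A0) (kap := S.kap) (q := S.qq) (th := S.th)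
      (b0 := ENNReal.ofReal S.b0) (K := K) (u := List.replicate k 0) (W_nil_c m) hSI
      (lab_c hm) H.qq S.hth.le H.th S.hA0 S.hkap H.kap (ENNReal.ofReal_le_ofReal S.hAb)
      ENNReal.ofReal_ne_top (S.isCompact_X (rk p k) m).isClosed (S.convex_X (rk p k) m) hR0
      (S.X_subset_ball (rk p k) m) hfm hP hroot
      (fun s _ x hx => by
        have h := A_le_b0_c (S := S) (p := s) (m := m) (x := x) hx.1
        rw [mem_setOf_eq, pl_eq_chn_c]
        exact h)
      (fun s _ x h0 hx => by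
        rw [nk_eq_c] at hx
        exact om_of_zero_c h0 hx)
      (fun s hs x h0 hx => by
        rw [hfib s hs x]
        exact hgood s hs x h0)
  rw [pl_eq_chn_c, pl_eq_chn_c] at key
  have e1 : {x | ENNReal.ofReal (Real.exp (-1418)) ≤ qq (S.W p m) K x} =
      {x | ENNReal.ofReal (Real.exp (-1418)) ≤ S.q p m x} := by
    ext x
    rw [mem_setOf_eq, mem_setOf_eq, hqK x]
  rw [e1] at key
  have hleft : ∫⁻ x, (S.Rg p 0 m).indicator (1 : E → ℝ≥0∞) x * ((Gd S (rk p k) m).indicator 1 x *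
      (S.As S.th (rk p k) m x * H711.tau (S.fam m) (S.pay m) n (rk p k) x)) ∂stdGaussian E =
      ∫⁻ x, (S.Rg p 0 m).indicator 1 x * (S.As S.th (rk p k) m x *
        (Gd S (rk p k) m).indicator (fun x => H711.tau (S.fam m) (S.pay m) n (rk p k) x) x)
        ∂stdGaussian E := by
    refine lintegral_congr fun x => ?_
    by_cases hx : x ∈ Gd S (rk p k) m
    · rw [indicator_of_mem hx, indicator_of_mem hx, Pi.one_apply, one_mul]
    · rw [indicator_of_notMem hx, indicator_of_notMem hx, zero_mul, mul_zero, mul_zero, mul_zero]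
  rw [hleft]
  refine le_trans key ?_
  unfold V0
  refine mul_le_mul' ?_ le_rfl
  -- the constant
  have hkap := S.hkap
  have hkap1 := S.hkap1
  have hkq : (12 * ENNReal.ofReal S.kq) ^ n = ENNReal.ofReal ((3072 * S.kap ^ (1 / 2 : ℝ)) ^ n) := by
    rw [ENNReal.ofReal_pow (by positivity)]
    congr 1
    have : S.kq = 256 * S.kap ^ (1 / 2 : ℝ) := rfl
    rw [this, show (3072 : ℝ) * S.kap ^ (1 / 2 : ℝ) = 12 * (256 * S.kap ^ (1 / 2 : ℝ)) by ring,
      ENNReal.ofReal_mul (by norm_num : (0 : ℝ) ≤ 12)]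
    simp only [ENNReal.ofReal_ofNat]
  have h2 : (2 : ℝ≥0∞) ^ (k + n) = ENNReal.ofReal (2 ^ (k + n)) := by
    rw [ENNReal.ofReal_pow (by norm_num)]
    simp only [ENNReal.ofReal_ofNat]
  have h1 := finrank_desc (S := S) (m := m) (q := 0 :: p) (u := List.replicate k 0) hSI
  rw [List.length_replicate] at h1
  have hkr : S.kr m = Module.finrank ℝ (S.W (0 :: p) m) - Module.finrank ℝ (S.W p m) := by
    unfold kr
    rw [hjj]
    rfl
  have h3 : Module.finrank ℝ (S.W p m) ≤ Module.finrank ℝ (S.W (0 :: p) m) :=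
    Submodule.finrank_mono (S.W_le 0 p m)
  have h4 : S.kr m + k ≤ Module.finrank ℝ (S.W (List.replicate k 0 ++ (0 :: p)) m) -
      Module.finrank ℝ (S.W p m) := by omega
  have h5 : (S.kap ^ (Module.finrank ℝ (S.W (List.replicate k 0 ++ (0 :: p)) m) -
      Module.finrank ℝ (S.W p m))) ^ S.th ≤ (S.kap ^ (1 / 2 : ℝ)) ^ (S.kr m + k) := by
    have h6 : (S.kap ^ (1 / 2 : ℝ)) ^ (S.kr m + k) = (S.kap ^ (S.kr m + k)) ^ (1 / 2 : ℝ) := by
      rw [← Real.rpow_natCast, ← Real.rpow_mul hkap.le, mul_comm, Real.rpow_mul hkap.le,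
        Real.rpow_natCast]
    rw [h6, hth]
    exact Real.rpow_le_rpow (pow_nonneg hkap.le _) (pow_le_pow_of_le_one hkap.le hkap1 h4)
      (by norm_num)
  have hs0 : 0 < S.kap ^ (1 / 2 : ℝ) := Real.rpow_pos_of_pos hkap _
  have h22 : (2 : ℝ≥0∞) = ENNReal.ofReal 2 := by simp
  rw [hkq, h2, h22, ← ENNReal.ofReal_mul (by positivity), ← ENNReal.ofReal_mul (by positivity),
    ← ENNReal.ofReal_mul (by positivity), ← ENNReal.ofReal_mul (by positivity)]
  refine ENNReal.ofReal_le_ofReal ?_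
  have h7 := base_le hkap hkap1 (S.kr m) k n
  calc 2 * (24000 * cPay * S.mv.ph m * 2 ^ (k + n) * (3072 * S.kap ^ (1 / 2 : ℝ)) ^ n) *
        (S.kap ^ (Module.finrank ℝ (S.W (List.replicate k 0 ++ (0 :: p)) m) -
          Module.finrank ℝ (S.W p m))) ^ S.th
      ≤ 2 * (24000 * cPay * S.mv.ph m * 2 ^ (k + n) * (3072 * S.kap ^ (1 / 2 : ℝ)) ^ n) *
        (S.kap ^ (1 / 2 : ℝ)) ^ (S.kr m + k) := by gcongr
    _ = 48000 * cPay * S.mv.ph m * (2 ^ (k + n) * (3072 * S.kap ^ (1 / 2 : ℝ)) ^ n *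
        (S.kap ^ (1 / 2 : ℝ)) ^ (S.kr m + k)) := by ring
    _ ≤ _ := by gcongr

/-- **(THR0) of milestone 2 with an absolute base** -/
theorem THR0_B (H : ThrC S) (hth : S.th = 1 / 2) (hk : S.kq ≤ 1)
    (hroot : ∀ m, m < S.mT → ∀ x, S.kl [] m x ≠ 0) {CT lam : ℝ}
    (hCT : 2 * cThr + 48000 * cPay ≤ CT) (hlam : 12288 * S.kap ^ (1 / 2 : ℝ) ≤ lam) :
    S.THR0 CT lam := by
  have hc : 0 ≤ cPay := by unfold cPay; have := cL1_pos; positivity
  have hs0 : 0 < S.kap ^ (1 / 2 : ℝ) := Real.rpow_pos_of_pos S.hkap _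
  refine THR0_of_good H hroot (wt := fun m c r => S.cw (c :: r) m)
    (C := 48000 * cPay) (lam0 := 6144 * S.kap ^ (1 / 2 : ℝ)) ?_ ?_ (by positivity) (by positivity)
    hCT ?_ ?_ ?_
  · intro m hm c r y
    exact S.As_child_le_cw _ _ _ _
  · intro m c r
    exact S.cw_meas _ _
  · rw [hth]
    nlinarith
  · linarith
  · intro m hm hrot p hjj k n _ _ hN
    exact goodK_B H hth hk (hroot m hm) (tm_lt_c hm) hrot hjj n hN

end Vale.Agent.P262.H439
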