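import Vale.Agent.P262.H292.WStar
import Vale.Agent.P262.H606.Dist

/-!
# P262, block QTIP: labels with a very small alive mass carry a small part of the alive mass

`q x = fib V (K.indicator 1) x` is the alive mass of a closed convex body over the label of `x`.
It is log-concave, so the nested star theorem applies to the triples
`w 1{q ≥ e^{-t}}`, `w 1{q ≥ e^{-(t-1)}}`, `w 1{q ≥ 1/2}`: the `w`-mass of `{q ≥ e^{-t}}` in the
region grows at most by the factor `1 + 1408 / t` per unit of `t`, while the alive mass decreases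
by the factor `e`.
-/

set_option linter.all false

open MeasureTheory ProbabilityTheory Set Filter
open scoped ENNReal RealInnerProductSpace Topology

namespace Vale.Agent.P262.H439

open Vale.Agent.P262.H44 Vale.Agent.P262.H59 Vale.Agent.P262.H395
open Vale.Agent.P262.H395.KTree
open Vale.Agent.P262.H493 (LogConc)
open Vale.Agent.P262.H606 (pl_gauss gd gd_lc)
open Vale.Agent.P262.H292 (flagIneqC flat_gen)

variable {E : Type*} [NormedAddCommGroup E] [InnerProductSpace ℝ E] [FiniteDimensional ℝ E]
  [MeasurableSpace E] [BorelSpace E]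

/-- alive mass of the body `K` over the label -/
noncomputable def qq (V : Submodule ℝ E) (K : Set E) (x : E) : ℝ≥0∞ := fib V (K.indicator 1) x

lemma qq_le_one (V : Submodule ℝ E) (K : Set E) (x : E) : qq V K x ≤ 1 :=
  fib_le_one (fun y => indicator_le_self' (fun _ _ => bot_le) y) x

lemma measurable_qq {V : Submodule ℝ E} {K : Set E} (hK : MeasurableSet K) :
    Measurable (qq V K) := measurable_fib (measurable_one.indicator hK)

lemma inv_qq (V : Submodule ℝ E) (K : Set E) : Inv V (qq V K) := inv_fib V _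

lemma mix_lin2 (V : Submodule ℝ E) (x y : E) (s t : ℝ) (z z' : E) :
    s • mix V x z + t • mix V y z' = mix V (s • x + t • y) (s • z + t • z') := by
  unfold mix
  simp only [map_add, map_smul, smul_add, smul_sub]
  abel

/-- **Prékopa**: the alive mass is log-concave -/
lemma qq_lc {V : Submodule ℝ E} {K : Set E} (hK : MeasurableSet K) (hKc : Convex ℝ K) :
    LogConc (qq V K) := by
  intro x y s t hs ht hst
  unfold qq fib
  have hm : ∀ u : E, Measurable fun z => K.indicator (1 : E → ℝ≥0∞) (mix V u z) := fun u =>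
    (measurable_one.indicator hK).comp (measurable_mix_right V u)
  refine pl_gauss (hm x) (hm y) (hm _) hs ht hst fun z z' => ?_
  by_cases h1 : mix V x z ∈ K
  · by_cases h2 : mix V y z' ∈ K
    · have h3 : mix V (s • x + t • y) (s • z + t • z') ∈ K := by
        rw [← mix_lin2]
        exact hKc h1 h2 hs.le ht.le hst
      rw [indicator_of_mem h1, indicator_of_mem h2, indicator_of_mem h3]
      simp only [Pi.one_apply, mul_one]
      exact gd_lc z z' s t hs ht hst
    · rw [indicator_of_notMem h2, mul_zero, ENNReal.zero_rpow_of_pos ht, mul_zero]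
      exact bot_le
  · rw [indicator_of_notMem h1, mul_zero, ENNReal.zero_rpow_of_pos hs, zero_mul]
    exact bot_le

/-- the alive mass of a closed body is upper semicontinuous -/
lemma isClosed_qq {V : Submodule ℝ E} {K : Set E} (hK : IsClosed K) (a : ℝ≥0∞) :
    IsClosed {x | a ≤ qq V K x} := by
  refine isSeqClosed_iff_isClosed.mp ?_
  intro u x hu hux
  have hm : ∀ n, Measurable fun z => K.indicator (1 : E → ℝ≥0∞) (mix V (u n) z) := fun n =>
    (measurable_one.indicator hK.measurableSet).comp (measurable_mix_right V _)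
  have h1 : limsup (fun n => ∫⁻ z, K.indicator (1 : E → ℝ≥0∞) (mix V (u n) z) ∂stdGaussian E)
      atTop ≤ ∫⁻ z, limsup (fun n => K.indicator (1 : E → ℝ≥0∞) (mix V (u n) z)) atTop
        ∂stdGaussian E := by
    refine limsup_lintegral_le (fun _ => 1) hm (fun n => Eventually.of_forall fun z => ?_) ?_
    · exact indicator_le_self' (fun _ _ => bot_le) _
    · simp
  have h2 : ∀ z, limsup (fun n => K.indicator (1 : E → ℝ≥0∞) (mix V (u n) z)) atTop ≤
      K.indicator (1 : E → ℝ≥0∞) (mix V x z) := by
    intro z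
    by_cases hz : mix V x z ∈ K
    · rw [indicator_of_mem hz]
      refine limsup_le_of_le (by isBoundedDefault) (Eventually.of_forall fun n => ?_)
      exact indicator_le_self' (fun _ _ => bot_le) _
    · rw [indicator_of_notMem hz]
      have hc : Tendsto (fun n => mix V (u n) z) atTop (𝓝 (mix V x z)) := by
        have hcont : Continuous fun y => mix V y z := by
          unfold mix
          fun_prop
        exact (hcont.tendsto x).comp hux
      have he : ∀ᶠ n in atTop, K.indicator (1 : E → ℝ≥0∞) (mix V (u n) z) ≤ 0 := by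
        filter_upwards [hc.eventually (hK.isOpen_compl.mem_nhds hz)] with n hn
        rw [indicator_of_notMem hn]
      exact limsup_le_of_le (by isBoundedDefault) he
  have h3 : a ≤ limsup (fun n => qq V K (u n)) atTop := by
    have : limsup (fun _ : ℕ => a) atTop ≤ limsup (fun n => qq V K (u n)) atTop :=
      limsup_le_limsup (Eventually.of_forall fun n => hu n)
    simpa using this
  exact h3.trans (h1.trans (lintegral_mono h2))

/-- the level sets of the alive mass -/
def LL (V : Submodule ℝ E) (K : Set E) (t : ℝ) : Set E :=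
  {x | ENNReal.ofReal (Real.exp (-t)) ≤ qq V K x}

lemma isClosed_LL {V : Submodule ℝ E} {K : Set E} (hK : IsClosed K) (t : ℝ) :
    IsClosed (LL V K t) := isClosed_qq hK _

lemma LL_mono (V : Submodule ℝ E) (K : Set E) {t t' : ℝ} (h : t ≤ t') :
    LL V K t ⊆ LL V K t' := fun x hx =>
  (ENNReal.ofReal_le_ofReal (Real.exp_le_exp.mpr (by linarith))).trans hx

lemma LL_conv {V : Submodule ℝ E} {K : Set E} (hK : MeasurableSet K) (hKc : Convex ℝ K)
    {a b : ℝ} {x y : E} (hx : x ∈ LL V K a) (hy : y ∈ LL V K b) {s t : ℝ} (hs : 0 < s)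
    (ht : 0 < t) (hst : s + t = 1) {r : ℝ} (hr : s * a + t * b ≤ r) :
    s • x + t • y ∈ LL V K r := by
  have h := qq_lc (V := V) hK hKc x y s t hs ht hst
  refine le_trans ?_ h
  have h1 : ENNReal.ofReal (Real.exp (-a)) ^ s * ENNReal.ofReal (Real.exp (-b)) ^ t ≤
      qq V K x ^ s * qq V K y ^ t :=
    mul_le_mul' (ENNReal.rpow_le_rpow hx hs.le) (ENNReal.rpow_le_rpow hy ht.le)
  refine le_trans ?_ h1
  rw [ENNReal.ofReal_rpow_of_pos (Real.exp_pos _), ENNReal.ofReal_rpow_of_pos (Real.exp_pos _),
    ← ENNReal.ofReal_mul (by positivity), ← Real.exp_mul, ← Real.exp_mul, ← Real.exp_add]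
  refine ENNReal.ofReal_le_ofReal (Real.exp_le_exp.mpr ?_)
  linarith

lemma convex_LL {V : Submodule ℝ E} {K : Set E} (hK : MeasurableSet K) (hKc : Convex ℝ K)
    (t : ℝ) : Convex ℝ (LL V K t) := by
  intro x hx y hy s u hs hu hsu
  rcases hs.eq_or_lt with h | hs'
  · have hu1 : u = 1 := by linarith
    rw [← h, hu1, zero_smul, one_smul, zero_add]
    exact hy
  rcases hu.eq_or_lt with h | hu'
  · have hs1 : s = 1 := by linarith
    rw [← h, hs1, zero_smul, one_smul, add_zero]
    exact hx
  refine LL_conv hK hKc hx hy hs' hu' hsu ?_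
  have : s = 1 - u := by linarith
  subst this
  linarith

/-- the regular triple of the level sets -/
theorem regC_qq {c : ℝ} {w : E → ℝ≥0∞} (hw : Weight c w) (V : Submodule ℝ E) {K : Set E}
    (hK : IsClosed K) (hKc : Convex ℝ K) {t : ℝ} (ht : 1408 ≤ t) :
    RegC c (2 / t) ((LL V K t).indicator w) ((LL V K (t - 1)).indicator w)
      ((LL V K (Real.log 2)).indicator w) := by
  have ht0 : 0 < t := by linarith
  have hKm := hK.measurableSet
  have hlog : Real.log 2 ≤ 7 / 10 := by
    have := Real.log_two_lt_d9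
    linarith
  have hlog0 : 0 < Real.log 2 := Real.log_pos (by norm_num)
  have hΘ : 0 < 2 / t := by positivity
  have hΘ1 : 2 / t < 1 := by rw [div_lt_one ht0]; linarith
  have w0 := hw.indicator (isClosed_LL (V := V) hK t) (convex_LL hKm hKc t)
  have wT := hw.indicator (isClosed_LL (V := V) hK (t - 1)) (convex_LL hKm hKc (t - 1))
  have w1 := hw.indicator (isClosed_LL (V := V) hK (Real.log 2)) (convex_LL hKm hKc (Real.log 2))
  have e : ∀ (C : Set E) (x : E), ec c x * C.indicator w x = C.indicator (fun x => ec c x * w x) x := by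
    intro C x
    by_cases hx : x ∈ C
    · rw [indicator_of_mem hx, indicator_of_mem hx]
    · rw [indicator_of_notMem hx, indicator_of_notMem hx, mul_zero]
  refine ⟨⟨(continuous_ec c).measurable.mul w0.meas, (continuous_ec c).measurable.mul wT.meas,
    (continuous_ec c).measurable.mul w1.meas, fun x => mul_le_mul' le_rfl ?_,
    fun x => mul_le_mul' le_rfl ?_, w0.lc, ?_, w1.usc, w0.bdd⟩⟩
  · exact indicator_le_indicator_of_subset (LL_mono V K (by linarith)) (fun _ => bot_le) x
  · exact indicator_le_indicator_of_subset (LL_mono V K (by linarith)) (fun _ => bot_le) x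
  · intro x y
    have h1Θ : 0 < 1 - 2 / t := by linarith
    by_cases hx : x ∈ LL V K t
    · by_cases hy : y ∈ LL V K (Real.log 2)
      · have hz : (1 - 2 / t) • x + (2 / t) • y ∈ LL V K (t - 1) := by
          refine LL_conv hKm hKc hx hy h1Θ hΘ (by ring) ?_
          have h2 : (1 - 2 / t) * t = t - 2 := by field_simp
          have h3 : 2 / t * Real.log 2 ≤ 1 := by
            rw [div_mul_eq_mul_div, div_le_one ht0]
            linarith
          linarith
        show (ec c x * (LL V K t).indicator w x) ^ (1 - 2 / t) *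
          (ec c y * (LL V K (Real.log 2)).indicator w y) ^ (2 / t) ≤
          ec c ((1 - 2 / t) • x + (2 / t) • y) *
            (LL V K (t - 1)).indicator w ((1 - 2 / t) • x + (2 / t) • y)
        rw [indicator_of_mem hx, indicator_of_mem hy, indicator_of_mem hz]
        exact hw.lc x y _ _ h1Θ hΘ (by ring)
      · show (ec c x * (LL V K t).indicator w x) ^ (1 - 2 / t) *
          (ec c y * (LL V K (Real.log 2)).indicator w y) ^ (2 / t) ≤ _
        rw [indicator_of_notMem hy, mul_zero (ec c y), ENNReal.zero_rpow_of_pos hΘ, mul_zero]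
        exact bot_le
    · show (ec c x * (LL V K t).indicator w x) ^ (1 - 2 / t) *
          (ec c y * (LL V K (Real.log 2)).indicator w y) ^ (2 / t) ≤ _
      rw [indicator_of_notMem hx, mul_zero (ec c x), ENNReal.zero_rpow_of_pos h1Θ, zero_mul]
      exact bot_le

/-- health and flatness of a label: the body `C ∩ K` has mass `h` and the weight is flat -/
def QH (t : ℝ) (K : Set E) (w : E → ℝ≥0∞) (C : Set E) (W : Submodule ℝ E) (x : E) : Prop :=
  ∃ ε h : ℝ, 0 ≤ ε ∧ t * (1 + ε) + ε ≤ 2 * h - 1 ∧
    ENNReal.ofReal h ≤ fib W ((C ∩ K).indicator 1) x ∧ FlatAt ε w W x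

/-- stopped labels: health `4/5` and flatness `1/40` -/
lemma QH.deep {K : Set E} {w : E → ℝ≥0∞} {C : Set E} {W : Submodule ℝ E} {x : E}
    (h : ENNReal.ofReal (4 / 5) ≤ fib W ((C ∩ K).indicator 1) x) (hf : FlatAt (1 / 40) w W x) :
    QH (1 / 2) K w C W x := ⟨1 / 40, 4 / 5, by norm_num, by norm_num, h, hf⟩

/-- roots: health `2/3` and flatness `1/40` -/
lemma QH.root {K : Set E} {w : E → ℝ≥0∞} {C : Set E} {W : Submodule ℝ E} {x : E}
    (h : ENNReal.ofReal (2 / 3) ≤ fib W ((C ∩ K).indicator 1) x) (hf : FlatAt (1 / 40) w W x) :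
    QH (1 / 4) K w C W x := ⟨1 / 40, 2 / 3, by norm_num, by norm_num, h, hf⟩

/-- Markov: below a healthy label most labels have alive mass at least `1/2` -/
lemma markov_qq {V W : Submodule ℝ E} (hWV : W ≤ V) {K C : Set E} (hK : MeasurableSet K)
    (hC : MeasurableSet C) (hCi : InvS V C) {h : ℝ} (x : E)
    (hh : ENNReal.ofReal h ≤ fib W ((C ∩ K).indicator 1) x) :
    ENNReal.ofReal (2 * h - 1) ≤
      fib W ((C ∩ LL V K (Real.log 2)).indicator (1 : E → ℝ≥0∞)) x := by
  set G := C ∩ LL V K (Real.log 2) with hG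
  have hLm : MeasurableSet (LL V K (Real.log 2)) := by
    unfold LL
    exact measurableSet_le measurable_const (measurable_qq hK)
  have hGm : MeasurableSet G := hC.inter hLm
  have e2 : Real.exp (-Real.log 2) = 1 / 2 := by
    rw [Real.exp_neg, Real.exp_log (by norm_num)]
    norm_num
  -- pointwise at the labels of `V`
  have h1 : ∀ y, fib V ((C ∩ K).indicator (1 : E → ℝ≥0∞)) y ≤
      ENNReal.ofReal (1 / 2) * G.indicator (1 : E → ℝ≥0∞) y + ENNReal.ofReal (1 / 2) := by
    intro y
    by_cases hyC : y ∈ C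
    · by_cases hyL : y ∈ LL V K (Real.log 2)
      · have hy : y ∈ G := ⟨hyC, hyL⟩
        rw [indicator_of_mem hy, Pi.one_apply, mul_one, ← ENNReal.ofReal_add (by norm_num)
          (by norm_num)]
        have : fib V ((C ∩ K).indicator (1 : E → ℝ≥0∞)) y ≤ 1 :=
          fib_le_one (fun z => indicator_le_self' (fun _ _ => bot_le) z) y
        refine this.trans ?_
        norm_num
      · refine le_trans ?_ le_add_self
        have h3 : qq V K y < ENNReal.ofReal (1 / 2) := by
          have : ¬ ENNReal.ofReal (Real.exp (-Real.log 2)) ≤ qq V K y := hyL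
          rw [e2] at this
          exact not_le.mp this
        refine le_trans ?_ h3.le
        exact fib_mono (fun z => indicator_le_indicator_of_subset inter_subset_right
          (fun _ => bot_le) z) y
    · have h0 : fib V ((C ∩ K).indicator (1 : E → ℝ≥0∞)) y = 0 := by
        have : ∀ z, (C ∩ K).indicator (1 : E → ℝ≥0∞) (mix V y z) = 0 := by
          intro z
          rw [indicator_of_notMem]
          rintro ⟨h1, _⟩
          exact hyC ((hCi.mix y z).mp h1)
        unfold fib
        simp [this]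
      rw [h0]
      exact bot_le
  have h2 : fib W ((C ∩ K).indicator (1 : E → ℝ≥0∞)) x ≤
      ENNReal.ofReal (1 / 2) * fib W (G.indicator (1 : E → ℝ≥0∞)) x + ENNReal.ofReal (1 / 2) := by
    rw [← fib_tower hWV (measurable_one.indicator (hC.inter hK)) x]
    refine (fib_mono h1 x).trans (le_of_eq ?_)
    rw [fib_add_right measurable_const, fib_const, fib_mul (inv_const W _)
      (measurable_one.indicator hGm)]
  have hfin : fib W (G.indicator (1 : E → ℝ≥0∞)) x ≠ ⊤ :=
    ne_top_of_le_ne_top ENNReal.one_ne_top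
      (fib_le_one (fun z => indicator_le_self' (fun _ _ => bot_le) z) x)
  have h3 := hh.trans h2
  rw [← ENNReal.ofReal_toReal hfin, ← ENNReal.ofReal_mul (by norm_num),
    ← ENNReal.ofReal_add (by positivity) (by norm_num),
    ENNReal.ofReal_le_ofReal_iff (by positivity)] at h3
  rw [← ENNReal.ofReal_toReal hfin]
  refine ENNReal.ofReal_le_ofReal ?_
  linarith

lemma QH.le {t : ℝ} (ht : 0 ≤ t) {V W : Submodule ℝ E} (hWV : W ≤ V) {K C : Set E}
    (hK : IsClosed K) (hC : MeasurableSet C) (hCi : InvS V C) {w : E → ℝ≥0∞}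
    (hwm : Measurable w) {x : E} (h : QH t K w C W x) (s : ℝ) :
    ENNReal.ofReal t * fib W (C.indicator ((LL V K s).indicator w)) x ≤
      fib W (C.indicator ((LL V K (Real.log 2)).indicator w)) x := by
  obtain ⟨ε, a, hε, hat, hh, hf⟩ := h
  have hm : ∀ r, MeasurableSet (C ∩ LL V K r) := fun r => hC.inter (isClosed_LL hK r).measurableSet
  have e : ∀ r, C.indicator ((LL V K r).indicator w) =
      fun y => w y * (C ∩ LL V K r).indicator 1 y := by
    intro r
    funext y
    by_cases h1 : y ∈ C
    · by_cases h2 : y ∈ LL V K r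
      · rw [indicator_of_mem h1, indicator_of_mem h2,
          indicator_of_mem (show y ∈ C ∩ LL V K r from ⟨h1, h2⟩), Pi.one_apply, mul_one]
      · rw [indicator_of_mem h1, indicator_of_notMem h2,
          indicator_of_notMem (fun h : y ∈ C ∩ LL V K r => h2 h.2), mul_zero]
    · rw [indicator_of_notMem h1, indicator_of_notMem (fun h : y ∈ C ∩ LL V K r => h1 h.1),
        mul_zero]
  rw [e, e]
  have l : ∀ r, ∀ y, (C ∩ LL V K r).indicator (1 : E → ℝ≥0∞) y ≤ 1 := fun r y =>
    indicator_le_self' (fun _ _ => bot_le) y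
  have hM := markov_qq hWV hK.measurableSet hC hCi x hh
  refine flat_gen hwm (measurable_one.indicator (hm _)) (l s) (l (Real.log 2)) hε ht
    (a := 11 / 20 + 23 / 50 * (2 * a - 1)) (by linarith) hf ?_
  have h1 : 0 ≤ 2 * a - 1 := by
    have : 0 ≤ t * (1 + ε) + ε := by positivity
    linarith
  rw [ENNReal.ofReal_add (by norm_num) (by positivity), ENNReal.ofReal_mul (by norm_num)]
  gcongr

/-- all label spaces of the tree are below `V` -/
def Under (V : Submodule ℝ E) : KTree E → Prop
  | KTree.leaf => True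
  | KTree.node W D Z cls sub => W ≤ V ∧ ∀ n, Under V (sub n)

lemma invS_frz {V : Submodule ℝ E} : ∀ {T : KTree E} {W0 : Submodule ℝ E} (_ : T.Valid W0)
    (_ : Under V T), InvS V T.frz
  | KTree.leaf, _, _, _ => fun _ _ _ => Iff.rfl
  | KTree.node W D Z cls sub, W0, h, hu => by
    obtain ⟨h1, hD, hcD, hcZ, hZ, hZc, hcls, hci, hsub⟩ := h
    intro x u hx
    have h2 := invS_frz (hsub 0) (hu.2 0) x u hx
    have h3 := hcZ x u (Submodule.orthogonal_le hu.1 hx)
    simp only [frz_node, mem_inter_iff, mem_compl_iff, h2, h3]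

/-- health and flatness along the path of a point -/
def HKQ (K : Set E) (w : E → ℝ≥0∞) : KTree E → E → Prop
  | KTree.leaf, _ => True
  | KTree.node W D Z cls sub, x => x ∉ Z →
      ((x ∈ D ∨ cls x ≠ 0) → QH (1 / 2) K w (sub 0).frz W x) ∧
      (x ∉ D → cls x ≠ 0 → QH (1 / 4) K w (sub (cls x)).frz W x) ∧
      (x ∉ D → HKQ K w (sub (cls x)) x)

lemma HKQ.hlt {V : Submodule ℝ E} {K : Set E} (hK : IsClosed K) {w : E → ℝ≥0∞}
    (hwm : Measurable w) (s : ℝ) : ∀ {T : KTree E}
    {W0 : Submodule ℝ E} (_ : T.Valid W0) (_ : Under V T) {x : E} (_ : HKQ K w T x),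
    KTree.hlt ((LL V K s).indicator w) ((LL V K (Real.log 2)).indicator w) T x
  | KTree.leaf, _, _, _, _, _ => trivial
  | KTree.node W D Z cls sub, W0, h, hu, x, hx => by
    obtain ⟨h1, hD, hcD, hcZ, hZ, hZc, hcls, hci, hsub⟩ := h
    intro hxZ
    obtain ⟨a, b, c⟩ := hx hxZ
    refine ⟨fun h => ?_, fun h h' => ?_, fun h => ?_⟩
    · have := (a h).le (by norm_num) hu.1 hK (isClosed_frz (hsub 0)).measurableSet
        (invS_frz (hsub 0) (hu.2 0)) hwm s
      unfold Long
      rw [← ofReal_half]
      exact this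
    · have := (b h h').le (by norm_num) hu.1 hK (isClosed_frz (hsub _)).measurableSet
        (invS_frz (hsub _) (hu.2 _)) hwm s
      unfold Root
      rw [← ofReal_quarter]
      exact this
    · exact HKQ.hlt hK hwm s (hsub _) (hu.2 _) (c h)

section main

variable {c : ℝ} {w : E → ℝ≥0∞} {V W0 : Submodule ℝ E} {K : Set E} {T : KTree E} {x0 : E}

/-- one unit of `t` -/
theorem grow (hc0 : 0 ≤ c) (hc : c < 1 / 2) (hw : Weight c w) (hK : IsClosed K)
    (hKc : Convex ℝ K) (hT : T.Valid W0) (hu : Under V T) (hWV : W0 ≤ V)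
    (hh : ∀ y, W0.starProjection y = W0.starProjection x0 → HKQ K w T y)
    (hroot : QH (1 / 4) K w T.frz W0 x0) {t : ℝ} (ht : 1408 ≤ t) :
    fib W0 (T.reg.indicator ((LL V K t).indicator w)) x0 ≤
      ENNReal.ofReal (1 + 1408 / t) *
        fib W0 (T.reg.indicator ((LL V K (t - 1)).indicator w)) x0 := by
  have ht0 : 0 < t := by linarith
  have hreg := regC_qq hw V hK hKc ht
  have hΘ : 0 < 2 / t := by positivity
  have hΘ1 : 2 / t ≤ 1 / 704 := by
    rw [div_le_div_iff₀ ht0 (by norm_num)]
    linarith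
  have hR := hroot.le (by norm_num) hWV hK (isClosed_frz hT).measurableSet (invS_frz hT hu)
    hw.meas t
  have key := kill_ineq hreg.m0 hreg.mT hreg.m1 (flagIneqC hc0 hc hΘ hΘ1 hreg) hT
    (fun y hy => HKQ.hlt hK hw.meas t hT hu (hh y hy))
    (by unfold Root; rw [← ofReal_quarter]; exact hR)
  unfold Ineq at key
  refine (le_self_add.trans key).trans ?_
  rw [ENNReal.ofReal_add (by norm_num) (by positivity), ENNReal.ofReal_one]
  rw [show 704 * (2 / t) = 1408 / t by ring]

/-- `n` units of `t`, starting at `1408` -/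
theorem grow_n (hc0 : 0 ≤ c) (hc : c < 1 / 2) (hw : Weight c w) (hK : IsClosed K)
    (hKc : Convex ℝ K) (hT : T.Valid W0) (hu : Under V T) (hWV : W0 ≤ V)
    (hh : ∀ y, W0.starProjection y = W0.starProjection x0 → HKQ K w T y)
    (hroot : QH (1 / 4) K w T.frz W0 x0) (n : ℕ) :
    fib W0 (T.reg.indicator ((LL V K (1408 + n)).indicator w)) x0 ≤
      ENNReal.ofReal (2 ^ n) *
        fib W0 (T.reg.indicator ((LL V K 1408).indicator w)) x0 := by
  induction n with
  | zero => simp
  | succ n ih =>
    have h1 := grow hc0 hc hw hK hKc hT hu hWV hh hroot (t := 1408 + (n + 1 : ℕ)) (by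
      have : (0 : ℝ) ≤ (n + 1 : ℕ) := by positivity
      linarith)
    have e : (1408 + ((n + 1 : ℕ) : ℝ) - 1) = 1408 + (n : ℝ) := by push_cast; ring
    rw [e] at h1
    refine h1.trans ?_
    have h2 : (1 + 1408 / (1408 + ((n + 1 : ℕ) : ℝ))) ≤ 2 := by
      have h3 : (0 : ℝ) ≤ (n + 1 : ℕ) := by positivity
      have h4 : 1408 / (1408 + ((n + 1 : ℕ) : ℝ)) ≤ 1 := by
        rw [div_le_one (by linarith)]
        linarith
      linarith
    calc _ ≤ ENNReal.ofReal 2 * (ENNReal.ofReal (2 ^ n) *
          fib W0 (T.reg.indicator ((LL V K 1408).indicator w)) x0) := by gcongr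
      _ = _ := by
        rw [← mul_assoc, ← ENNReal.ofReal_mul (by norm_num)]
        congr 2
        ring

/-- **QTIP.** In the region, the labels with alive mass less than `e^{-(1408 + n)}` carry at most
`8 (3/4)^n` of the weighted alive mass. -/
theorem qtip (hc0 : 0 ≤ c) (hc : c < 1 / 2) (hw : Weight c w) (hK : IsClosed K)
    (hKc : Convex ℝ K) (hT : T.Valid W0) (hu : Under V T) (hWV : W0 ≤ V)
    (hh : ∀ y, W0.starProjection y = W0.starProjection x0 → HKQ K w T y)
    (hroot : QH (1 / 4) K w T.frz W0 x0) (n : ℕ) :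
    fib W0 (T.reg.indicator fun x => w x *
      {x | qq V K x < ENNReal.ofReal (Real.exp (-(1408 + n)))}.indicator (qq V K) x) x0 ≤
      ENNReal.ofReal (8 * (3 / 4) ^ n) *
        fib W0 (T.reg.indicator fun x => w x * qq V K x) x0 := by
  have hTm := measurableSet_reg hT
  have hqm := measurable_qq (V := V) hK.measurableSet
  have hLm : ∀ t, MeasurableSet (LL V K t) := fun t => (isClosed_LL hK t).measurableSet
  set S : ℕ → ℝ≥0∞ := fun m => fib W0 (T.reg.indicator ((LL V K (1408 + m)).indicator w)) x0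
    with hS
  set A := fib W0 (T.reg.indicator fun x => w x * qq V K x) x0 with hA
  -- the base level
  have hbase : ENNReal.ofReal (Real.exp (-1408)) *
      fib W0 (T.reg.indicator ((LL V K 1408).indicator w)) x0 ≤ A := by
    rw [hA, ← fib_mul (inv_const W0 _) ((hw.meas.indicator (hLm _)).indicator hTm)]
    refine fib_mono (fun y => ?_) x0
    by_cases h1 : y ∈ T.reg
    · rw [indicator_of_mem h1, indicator_of_mem h1]
      by_cases h2 : y ∈ LL V K 1408
      · rw [indicator_of_mem h2, mul_comm]
        exact mul_le_mul' le_rfl h2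
      · rw [indicator_of_notMem h2, mul_zero]
        exact bot_le
    · rw [indicator_of_notMem h1, mul_zero]
      exact bot_le
  -- pointwise decomposition
  have hpt : ∀ x, w x *
      {x | qq V K x < ENNReal.ofReal (Real.exp (-(1408 + n)))}.indicator (qq V K) x ≤
      ∑' m : ℕ, ENNReal.ofReal (Real.exp (-(1408 + (n + m : ℕ)))) *
        (LL V K (1408 + (n + m + 1 : ℕ))).indicator w x := by
    intro x
    by_cases hx : qq V K x < ENNReal.ofReal (Real.exp (-(1408 + n)))
    swap
    · rw [indicator_of_notMem (show x ∉ {x | qq V K x < ENNReal.ofReal (Real.exp (-(1408 + n)))}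
        from hx), mul_zero]
      exact bot_le
    rw [indicator_of_mem (show x ∈ {x | qq V K x < ENNReal.ofReal (Real.exp (-(1408 + n)))}
        from hx)]
    by_cases h0 : qq V K x = 0
    · rw [h0, mul_zero]
      exact bot_le
    -- some level contains `x`
    have hex : ∃ m : ℕ, ENNReal.ofReal (Real.exp (-(1408 + (n + m + 1 : ℕ)))) ≤ qq V K x := by
      have ht : Tendsto (fun m : ℕ => ENNReal.ofReal (Real.exp (-(1408 + (n + m + 1 : ℕ)))))
          atTop (𝓝 0) := by
        rw [← ENNReal.ofReal_zero]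
        refine (ENNReal.continuous_ofReal.tendsto 0).comp ?_
        refine Real.tendsto_exp_neg_atTop_nhds_zero.comp ?_
        refine tendsto_atTop_add_const_left _ _ ?_
        exact tendsto_natCast_atTop_atTop.comp
          (tendsto_atTop_mono (fun m => by omega : ∀ m : ℕ, m ≤ n + m + 1) tendsto_id)
      obtain ⟨m, hm⟩ := (ht.eventually (gt_mem_nhds (pos_iff_ne_zero.mpr h0))).exists
      exact ⟨m, hm.le⟩
    classical
    set m := Nat.find hex with hmdef
    have hm1 := Nat.find_spec hex
    have hm2 : qq V K x ≤ ENNReal.ofReal (Real.exp (-(1408 + (n + m : ℕ)))) := by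
      rcases Nat.eq_zero_or_pos m with hm0 | hmpos
      · rw [hm0]
        simpa using hx.le
      · have := Nat.find_min hex (show m - 1 < Nat.find hex by omega)
        rw [not_le] at this
        have e : n + (m - 1) + 1 = n + m := by omega
        rw [e] at this
        exact this.le
    refine le_trans ?_ (ENNReal.le_tsum m)
    rw [indicator_of_mem (show x ∈ LL V K (1408 + (n + m + 1 : ℕ)) from hm1), mul_comm]
    exact mul_le_mul' hm2 le_rfl
  -- integrate
  have h1 : fib W0 (T.reg.indicator fun x => w x *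
      {x | qq V K x < ENNReal.ofReal (Real.exp (-(1408 + n)))}.indicator (qq V K) x) x0 ≤
      ∑' m : ℕ, ENNReal.ofReal (Real.exp (-(1408 + (n + m : ℕ)))) * S (n + m + 1) := by
    have h2 : fib W0 (T.reg.indicator fun x => w x *
        {x | qq V K x < ENNReal.ofReal (Real.exp (-(1408 + n)))}.indicator (qq V K) x) x0 ≤
        fib W0 (fun x => ∑' m : ℕ, ENNReal.ofReal (Real.exp (-(1408 + (n + m : ℕ)))) *
          T.reg.indicator ((LL V K (1408 + (n + m + 1 : ℕ))).indicator w) x) x0 := by
      refine fib_mono (fun x => ?_) x0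
      by_cases hx : x ∈ T.reg
      · simp only [indicator_of_mem hx]
        exact hpt x
      · rw [indicator_of_notMem hx]
        exact bot_le
    refine h2.trans (le_of_eq ?_)
    have hm : ∀ m : ℕ, Measurable (T.reg.indicator
        ((LL V K (1408 + (n + m + 1 : ℕ))).indicator w)) := fun m =>
      (hw.meas.indicator (hLm _)).indicator hTm
    have h5 := lintegral_tsum (μ := stdGaussian E) (f := fun (m : ℕ) (z : E) =>
      ENNReal.ofReal (Real.exp (-(1408 + (n + m : ℕ)))) *
          T.reg.indicator ((LL V K (1408 + (n + m + 1 : ℕ))).indicator w) (mix W0 x0 z))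
      (fun m => (((hm m).comp (measurable_mix_right W0 x0)).const_mul _).aemeasurable)
    refine Eq.trans h5 (tsum_congr fun m => ?_)
    exact lintegral_const_mul _ ((hm m).comp (measurable_mix_right W0 x0))
  refine h1.trans ?_
  have h3 : ∀ m : ℕ, ENNReal.ofReal (Real.exp (-(1408 + (n + m : ℕ)))) * S (n + m + 1) ≤
      ENNReal.ofReal (2 * (3 / 4) ^ n) * A * ENNReal.ofReal (3 / 4) ^ m := by
    intro m
    have hg := grow_n hc0 hc hw hK hKc hT hu hWV hh hroot (n + m + 1)
    have he : Real.exp (-(1408 + ((n + m : ℕ) : ℝ))) * 2 ^ (n + m + 1) ≤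
        2 * (3 / 4) ^ n * (3 / 4) ^ m * Real.exp (-1408) := by
      have e1 : Real.exp (-(1408 + ((n + m : ℕ) : ℝ))) =
          Real.exp (-1408) * Real.exp (-1) ^ (n + m) := by
        rw [← Real.exp_nat_mul, ← Real.exp_add]
        congr 1
        ring
      have e2 : Real.exp (-1) ≤ 3 / 8 := by
        have := Real.exp_one_gt_d9
        rw [Real.exp_neg]
        rw [inv_le_comm₀ (Real.exp_pos 1) (by norm_num)]
        norm_num
        linarith
      rw [e1]
      have e3 : Real.exp (-1) ^ (n + m) ≤ (3 / 8) ^ (n + m) :=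
        pow_le_pow_left₀ (Real.exp_pos _).le e2 _
      calc Real.exp (-1408) * Real.exp (-1) ^ (n + m) * 2 ^ (n + m + 1)
          ≤ Real.exp (-1408) * (3 / 8) ^ (n + m) * 2 ^ (n + m + 1) := by gcongr
        _ = 2 * (3 / 4) ^ n * (3 / 4) ^ m * Real.exp (-1408) := by
          rw [pow_succ, pow_add, pow_add, show (3 / 4 : ℝ) = 3 / 8 * 2 by norm_num, mul_pow,
            mul_pow]
          ring
    calc ENNReal.ofReal (Real.exp (-(1408 + (n + m : ℕ)))) * S (n + m + 1)
        ≤ ENNReal.ofReal (Real.exp (-(1408 + (n + m : ℕ)))) * (ENNReal.ofReal (2 ^ (n + m + 1)) *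
          fib W0 (T.reg.indicator ((LL V K 1408).indicator w)) x0) := by gcongr
      _ = ENNReal.ofReal (Real.exp (-(1408 + (n + m : ℕ))) * 2 ^ (n + m + 1)) *
          fib W0 (T.reg.indicator ((LL V K 1408).indicator w)) x0 := by
          rw [← mul_assoc, ← ENNReal.ofReal_mul (Real.exp_pos _).le]
      _ ≤ ENNReal.ofReal (2 * (3 / 4) ^ n * (3 / 4) ^ m * Real.exp (-1408)) *
          fib W0 (T.reg.indicator ((LL V K 1408).indicator w)) x0 := by gcongr
      _ = ENNReal.ofReal (2 * (3 / 4) ^ n) * ENNReal.ofReal (3 / 4) ^ m *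
          (ENNReal.ofReal (Real.exp (-1408)) *
          fib W0 (T.reg.indicator ((LL V K 1408).indicator w)) x0) := by
          rw [ENNReal.ofReal_mul (by positivity), ENNReal.ofReal_mul (by positivity),
            ENNReal.ofReal_pow (by norm_num) m]
          ring
      _ ≤ ENNReal.ofReal (2 * (3 / 4) ^ n) * ENNReal.ofReal (3 / 4) ^ m * A := by gcongr
      _ = _ := by ring
  refine (ENNReal.tsum_le_tsum h3).trans ?_
  rw [ENNReal.tsum_mul_left, ENNReal.tsum_geometric]
  have e4 : (1 - ENNReal.ofReal (3 / 4))⁻¹ = ENNReal.ofReal 4 := by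
    rw [← ENNReal.ofReal_one, ← ENNReal.ofReal_sub _ (by norm_num),
      ← ENNReal.ofReal_inv_of_pos (by norm_num)]
    norm_num
  rw [e4]
  refine le_of_eq ?_
  calc ENNReal.ofReal (2 * (3 / 4) ^ n) * A * ENNReal.ofReal 4
      = ENNReal.ofReal (2 * (3 / 4) ^ n) * ENNReal.ofReal 4 * A := by ring
    _ = _ := by
      rw [← ENNReal.ofReal_mul (by positivity)]
      congr 2
      ring

end main

end Vale.Agent.P262.H439
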